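import Vale.Agent.P022D.PA.Defs
import Vale.Agent.P022D.Core.Defs

/-!
# P022K, block PL: one patching machine. Definitions and rows.

`V` is finite free over `A = O[[κ ⊕ Fin r]]`, the operators `B i` are multiplication by the
variables of `κ` up to terms of higher order, a second ring `R` acts on `V`.
-/

set_option linter.all false

noncomputable section

namespace Vale.Agent.P022K.PL

open IsLocalRing Filter MvPowerSeries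
open Vale.Agent.P022D.Core (PS io y1)
open Vale.Agent.P022D.PA (Base Cv)

/-- the coefficient ring -/
class Cf (O : Type) [CommRing O] [IsDomain O] [IsDiscreteValuationRing O] : Prop where
  cpl : IsAdicComplete (maximalIdeal O) O
  fin : Finite (ResidueField O)

section defs

variable (O κ : Type) [CommRing O] [IsLocalRing O] (r : ℕ) (V : Type) [AddCommGroup V]
  [Module (PS O (κ ⊕ Fin r)) V]

/-- the adic filtration -/
def Fl (j : ℕ) : Submodule (PS O (κ ⊕ Fin r)) V := maximalIdeal (PS O (κ ⊕ Fin r)) ^ j • ⊤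

/-- the span of the multiples of the variables `y s`, `s ∈ S` -/
def Iy (S : Set (Fin r)) : Submodule (PS O (κ ⊕ Fin r)) V := Ideal.span (y1 O κ '' S) • ⊤

variable {V}

/-- the operators -/
structure Op (B : κ → V →+ V) : Prop where
  y : ∀ i (s : Fin r) v, B i (y1 O κ s • v) = y1 O κ s • B i v
  ap : ∀ i j v, v ∈ Fl O κ r V j → B i v - (X (Sum.inl i) : PS O (κ ⊕ Fin r)) • v ∈
    Fl O κ r V (j + 2)

variable (V) {R : Type} [CommRing R] [IsLocalRing R]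

/-- the action of the second ring -/
structure Act [Module R V] (ι : O →+* R) (y : Fin r → R) : Prop where
  c : ∀ o (v : V), ι o • v = (C o : PS O (κ ⊕ Fin r)) • v
  y : ∀ s (v : V), y s • v = y1 O κ s • v
  fil : ∀ (p : R) j v, v ∈ Fl O κ r V j → p • v ∈ Fl O κ r V j
  cont : ∃ a : ℕ, ∀ p ∈ maximalIdeal R ^ a, ∀ j v, v ∈ Fl O κ r V j → p • v ∈ Fl O κ r V (j + 1)

variable {κ V}

/-- stable under the operators -/
def Stab (B : κ → V →+ V) (L : Set V) : Prop := ∀ i, ∀ v ∈ L, B i v ∈ L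

variable (κ)

/-- closed for the adic filtration -/
def Clo (L : Set V) : Prop := ∀ v, (∀ j, ∃ l ∈ L, v - l ∈ Fl O κ r V j) → v ∈ L

/-- `f` is the limit of the maps `F n` -/
def Lm (U : Filter ℕ) (F : ℕ → V → V) (f : V → V) : Prop :=
  ∀ v j, ∀ᶠ n in U, f v - F n v ∈ Fl O κ r V j

variable {κ}

/-- **the data of finite level**: `M n = V / m ^ n` with an action of `R`, the submodules `N n`,
the fibre `M0 = V / y` and its submodule `N0` -/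
structure Lev (B : κ → V →+ V) (ι : O →+* R) (y : Fin r → R) (M : ℕ → Type)
    [∀ n, AddCommGroup (M n)] [∀ n, Module R (M n)] (π : ∀ n, V →+ M n)
    (N : ∀ n, Submodule R (M n)) (M0 : Type) [AddCommGroup M0] [Module R M0] (π0 : V →+ M0)
    (N0 : Set M0) : Prop where
  surj : ∀ n, Function.Surjective (π n)
  ker : ∀ n v, π n v = 0 → v ∈ Fl O κ r V n
  c : ∀ n o v, ι o • π n v = π n ((C o : PS O (κ ⊕ Fin r)) • v)
  y : ∀ n s v, y s • π n v = π n (y1 O κ s • v)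
  fil : ∀ n (p : R) j v, v ∈ Fl O κ r V j → ∃ v' ∈ Fl O κ r V j, p • π n v = π n v'
  cont : ∃ a : ℕ, ∀ n, ∀ p ∈ maximalIdeal R ^ a, ∀ j v, v ∈ Fl O κ r V j →
    ∃ v' ∈ Fl O κ r V (j + 1), p • π n v = π n v'
  gen : ∃ b : ℕ, ∀ n, ∃ g : Fin b → M n, N n = Submodule.span R (Set.range g)
  stab : ∀ n i v, π n v ∈ N n → π n (B i v) ∈ N n
  ker0 : ∀ v, π0 v = 0 ↔ v ∈ Iy O κ r V Set.univ
  fix : ∀ n (p : R) v v', p • π n v = π n v' → ∃ u ∈ Fl O κ r V n, p • π0 v = π0 (v' + u)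
  onto : ∀ n, ∀ w ∈ N0, ∃ v, π n v ∈ N n ∧ π0 v = w

/-- `p` commutes with the operators at finite level -/
def Com (B : κ → V →+ V) {M : ℕ → Type} [∀ n, AddCommGroup (M n)] [∀ n, Module R (M n)]
    (π : ∀ n, V →+ M n) (p : R) : Prop :=
  ∀ n i v v', p • π n v = π n v' → p • π n (B i v) = π n (B i v')

end defs

/-- row ACC -/
def ACC : Prop := ∀ (O κ : Type) [CommRing O] [IsDomain O] [IsDiscreteValuationRing O]
  [Fintype κ] (r : ℕ) (V : Type) [AddCommGroup V] [Module (PS O (κ ⊕ Fin r)) V]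
  [Module.Finite (PS O (κ ⊕ Fin r)) V] (B : κ → V →+ V), Op O κ r B →
  ∀ L : ℕ → AddSubgroup V, Monotone L →
    (∀ n o, ∀ v ∈ L n, (C o : PS O (κ ⊕ Fin r)) • v ∈ L n) →
    (∀ n (s : Fin r), ∀ v ∈ L n, y1 O κ s • v ∈ L n) → (∀ n, Stab B (L n : Set V)) →
    ∃ c, ∀ n, ∀ v ∈ L n, ∀ j, ∃ l ∈ L c, v - l ∈ Fl O κ r V j

/-- row GRO: growth from below -/
def GRO : Prop := ∀ (O κ : Type) [CommRing O] [IsDomain O] [IsDiscreteValuationRing O]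
  [Fintype κ] (r : ℕ) (V : Type) [AddCommGroup V] [Module (PS O (κ ⊕ Fin r)) V]
  [Module.Finite (PS O (κ ⊕ Fin r)) V] [Module.Free (PS O (κ ⊕ Fin r)) V] (B : κ → V →+ V),
  Op O κ r B → ∀ L : AddSubgroup V, L ≠ ⊥ →
    (∀ o, ∀ v ∈ L, (C o : PS O (κ ⊕ Fin r)) • v ∈ L) →
    (∀ s : Fin r, ∀ v ∈ L, y1 O κ s • v ∈ L) → Stab B (L : Set V) →
    ∃ c : ℕ, ∀ u : ℕ, ∃ f : Fin (2 ^ u ^ (1 + Fintype.card κ + r)) → V, (∀ i, f i ∈ L) ∧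
      ∀ i i', f i - f i' ∈ Fl O κ r V (c * (u + 1)) → i = i'

/-- row UPP: growth from above -/
def UPP : Prop := ∀ (R : Type) [CommRing R] [Base R] (L : Type) [AddCommGroup L] [Module R L]
  [Module.Finite R L] (t : ℕ), ringKrullDim (R ⧸ Module.annihilator R L) ≤ t →
    ∃ c : ℕ, ∀ j : ℕ, Finite (L ⧸ maximalIdeal R ^ j • (⊤ : Submodule R L)) ∧
      Nat.card (L ⧸ maximalIdeal R ^ j • (⊤ : Submodule R L)) ≤ 2 ^ (c * (j + 1) ^ t)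

/-- row DIM -/
def DIM : Prop := ∀ (O κ : Type) [CommRing O] [IsDomain O] [IsDiscreteValuationRing O]
  [Fintype κ] (r : ℕ) (V : Type) [AddCommGroup V] [Module (PS O (κ ⊕ Fin r)) V]
  [Module.Finite (PS O (κ ⊕ Fin r)) V] [Module.Free (PS O (κ ⊕ Fin r)) V] (B : κ → V →+ V)
  (R : Type) [CommRing R] [Base R] [Module R V] (ι : O →+* R) (y : Fin r → R),
  Op O κ r B → Act O κ r V ι y → ∀ L : Submodule R V, L.FG → L ≠ ⊥ → Stab B (L : Set V) →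
    ((1 + Fintype.card κ + r : ℕ) : WithBot ℕ∞) ≤ ringKrullDim (R ⧸ L.annihilator)

/-- row DESC: descent to the fibre -/
def DESC : Prop := ∀ (O κ : Type) [CommRing O] [IsDomain O] [IsDiscreteValuationRing O]
  [Fintype κ] (r : ℕ) (V : Type) [AddCommGroup V] [Module (PS O (κ ⊕ Fin r)) V]
  [Module.Finite (PS O (κ ⊕ Fin r)) V] [Module.Free (PS O (κ ⊕ Fin r)) V] (B : κ → V →+ V)
  (R : Type) [CommRing R] [Base R] [Module R V] (ι : O →+* R) (y : Fin r → R),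
  Op O κ r B → Act O κ r V ι y → ∀ L : Submodule R V, L.FG → Stab B (L : Set V) →
    ∀ 𝔭 : Ideal R, 𝔭.IsPrime → L.annihilator ≤ 𝔭 → (∀ s, y s ∈ 𝔭) →
      ∃ L0 : Submodule R V, L0.FG ∧
        (∀ i, ∀ v ∈ L0, ∃ l ∈ L0, B i v - l ∈ Iy O κ r V Set.univ) ∧
        ∀ h : R, (∀ v ∈ L0, h • v ∈ Iy O κ r V Set.univ) → h ∈ 𝔭

/-- row LO: lying over in the cover by the roots of the quadratic polynomials -/
def LO : Prop := ∀ (O σ : Type) [CommRing O] [IsDomain O] [IsDiscreteValuationRing O] [Cf O]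
  [Fintype σ] (r D : ℕ) (a b : Fin r → PS O σ) (𝔞 : Ideal (PS O (σ ⊕ Fin r)))
  (J 𝔮 : Ideal (PS O σ)), J.IsPrime → 𝔮.IsPrime → J ≤ 𝔮 →
    (∀ s, ¬ IsUnit (a s) ∧ ¬ IsUnit (b s)) →
    (∀ s, y1 O σ s ^ 2 - io O σ r (a s) * y1 O σ s + io O σ r (b s) ∈ 𝔞) →
    (∀ u ∈ J, io O σ r u ∈ 𝔞) → ringKrullDim (PS O σ ⧸ J) ≤ D →
    (D : WithBot ℕ∞) ≤ ringKrullDim (PS O (σ ⊕ Fin r) ⧸ 𝔞) →
      𝔞.comap (io O σ r) = J ∧
      ∃ 𝔭 : Ideal (PS O (σ ⊕ Fin r)), 𝔭.IsPrime ∧ 𝔞 ≤ 𝔭 ∧ 𝔭.comap (io O σ r) = 𝔮 ∧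
        ∀ s, a s ∈ 𝔮 → b s ∈ 𝔮 → y1 O σ s ∈ 𝔭

/-- row LIMOP: limits of sequences of maps -/
def LIMOP : Prop := ∀ (O κ : Type) [CommRing O] [IsDomain O] [IsDiscreteValuationRing O] [Cf O]
  [Fintype κ] (r : ℕ) (V : Type) [AddCommGroup V] [Module (PS O (κ ⊕ Fin r)) V]
  [Module.Finite (PS O (κ ⊕ Fin r)) V] (U : Ultrafilter ℕ), (U : Filter ℕ) ≤ atTop →
    (∀ F : ℕ → V → V, ∃ f, Lm O κ r U F f) ∧
    (∀ (F : ℕ → V → V) f f', Lm O κ r U F f → Lm O κ r U F f' → f = f') ∧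
    (∀ (F : ℕ → V → V) f, Lm O κ r U F f →
      (∀ n v w, F n (v + w) - (F n v + F n w) ∈ Fl O κ r V n) → ∀ v w, f (v + w) = f v + f w) ∧
    ∀ (F F' : ℕ → V → V) f f', Lm O κ r U F f → Lm O κ r U F' f' →
      (∀ j, ∃ j', ∀ᶠ n in (U : Filter ℕ), ∀ v w, v - w ∈ Fl O κ r V j' →
        F n v - F n w ∈ Fl O κ r V j) → Lm O κ r U (fun n => F n ∘ F' n) (f ∘ f')

/-- row LIMIT -/
def LIMIT : Prop := ∀ (O κ : Type) [CommRing O] [IsDomain O] [IsDiscreteValuationRing O] [Cf O]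
  [Fintype κ] (r : ℕ) (V : Type) [AddCommGroup V] [Module (PS O (κ ⊕ Fin r)) V]
  [Module.Finite (PS O (κ ⊕ Fin r)) V] (B : κ → V →+ V)
  (R : Type) [CommRing R] [Base R] (ι : O →+* R) (y : Fin r → R) (M : ℕ → Type)
  [∀ n, AddCommGroup (M n)] [∀ n, Module R (M n)] (π : ∀ n, V →+ M n)
  (N : ∀ n, Submodule R (M n)) (M0 : Type) [AddCommGroup M0] [Module R M0] (π0 : V →+ M0)
  (N0 : Set M0), Op O κ r B → Lev O r B ι y M π N M0 π0 N0 →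
  ∀ U : Ultrafilter ℕ, (U : Filter ℕ) ≤ atTop →
    ∃ _ : Module R V, Act O κ r V ι y ∧ (∀ (p : R) v, π0 (p • v) = p • π0 v) ∧
      (∀ (p : R) v j, ∀ᶠ n in (U : Filter ℕ), ∃ v', p • π n v = π n v' ∧
        p • v - v' ∈ Fl O κ r V j) ∧
      (∀ p : R, Com B π p → ∀ i v, p • B i v = B i (p • v)) ∧
      (∀ (z : ℕ → R) (a : R), Cv (U : Filter ℕ) z a → (∀ n (w : M n), z n • w = 0) →
        ∀ v : V, a • v = 0) ∧
      ∃ L : Submodule R V, L.FG ∧ Stab B (L : Set V) ∧ (∀ w ∈ N0, ∃ v ∈ L, π0 v = w) ∧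
        ∀ v, v ∈ L ↔ ∀ j, ∀ᶠ n in (U : Filter ℕ), ∃ v', π n v' ∈ N n ∧ v - v' ∈ Fl O κ r V j

/-- row COMP: the part killed by a minimal prime of a commuting ring -/
def COMP : Prop := ∀ (P R V : Type) [CommRing P] [CommRing R] [IsNoetherianRing R]
  [AddCommGroup V] [Module R V] (φ : P →+* R) (L : Submodule R V), L.FG →
  ∀ 𝔵 : Ideal P, 𝔵.IsPrime → L.annihilator.comap φ ≤ 𝔵 →
    ∃ 𝔮 : Ideal P, 𝔮.IsPrime ∧ L.annihilator.comap φ ≤ 𝔮 ∧ 𝔮 ≤ 𝔵 ∧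
      ∃ v ∈ L, v ≠ 0 ∧ ∀ u ∈ 𝔮, φ u • v = 0

/-- **the theorem at infinite level** -/
def PATI : Prop := ∀ (O κ σ : Type) [CommRing O] [IsDomain O] [IsDiscreteValuationRing O] [Cf O]
  [Fintype κ] [Fintype σ] (r : ℕ) (V : Type) [AddCommGroup V] [Module (PS O (κ ⊕ Fin r)) V]
  [Module.Finite (PS O (κ ⊕ Fin r)) V] [Module.Free (PS O (κ ⊕ Fin r)) V] (B : κ → V →+ V)
  [Module (PS O (σ ⊕ Fin r)) V] (a b : Fin r → PS O σ) (P : Type) [CommRing P]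
  (φ : P →+* PS O σ) (I₀ J₀ 𝔵 : Ideal P) (h : P) (L : Submodule (PS O (σ ⊕ Fin r)) V),
  Op O κ r B → Act O κ r V C (y1 O σ) → (∀ s, ¬ IsUnit (a s) ∧ ¬ IsUnit (b s)) →
  (∀ s (v : V), (y1 O σ s ^ 2 - io O σ r (a s) * y1 O σ s + io O σ r (b s)) • v = 0) →
  (∀ p i (v : V), io O σ r (φ p) • B i v = B i (io O σ r (φ p) • v)) →
  (∀ u ∈ I₀, ∀ v : V, io O σ r (φ u) • v = 0) → L.FG → Stab B (L : Set V) →
  𝔵.IsPrime → (∀ u, (∀ v ∈ L, io O σ r (φ u) • v = 0) → u ∈ 𝔵) → h ∉ 𝔵 →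
  (∀ u ∈ J₀, h * u ∈ I₀) → (J₀.map φ).IsPrime →
  ringKrullDim (PS O σ ⧸ J₀.map φ) ≤ (1 + Fintype.card κ + r : ℕ) →
    (∀ u : PS O σ, (∀ v ∈ L, io O σ r u • v = 0) → u ∈ J₀.map φ) ∧
    ∀ 𝔮 : Ideal (PS O σ), 𝔮.IsPrime → J₀.map φ ≤ 𝔮 →
      (∃ 𝔭 : Ideal (PS O (σ ⊕ Fin r)), 𝔭.IsPrime ∧ L.annihilator ≤ 𝔭 ∧
        𝔭.comap (io O σ r) = 𝔮) ∧
      ((∀ s, a s ∈ 𝔮 ∧ b s ∈ 𝔮) → ∃ L0 : Submodule (PS O (σ ⊕ Fin r)) V, L0.FG ∧
        (∀ i, ∀ v ∈ L0, ∃ l ∈ L0, B i v - l ∈ Iy O κ r V Set.univ) ∧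
        ∀ u : PS O σ, (∀ v ∈ L0, io O σ r u • v ∈ Iy O κ r V Set.univ) → u ∈ 𝔮)

/-- **the patching theorem.** `P` is the Galois ring, `𝔵` the seed, `J₀` the component through the
seed, `𝔮` the target -/
def PAT : Prop := ∀ (O κ σ : Type) [CommRing O] [IsDomain O] [IsDiscreteValuationRing O] [Cf O]
  [Fintype κ] [Fintype σ] (r : ℕ) (V : Type) [AddCommGroup V] [Module (PS O (κ ⊕ Fin r)) V]
  [Module.Finite (PS O (κ ⊕ Fin r)) V] [Module.Free (PS O (κ ⊕ Fin r)) V] (B : κ → V →+ V)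
  (M : ℕ → Type) [∀ n, AddCommGroup (M n)] [∀ n, Module (PS O (σ ⊕ Fin r)) (M n)]
  (π : ∀ n, V →+ M n) (N : ∀ n, Submodule (PS O (σ ⊕ Fin r)) (M n))
  (M0 : Type) [AddCommGroup M0] [Module (PS O (σ ⊕ Fin r)) M0] (π0 : V →+ M0) (N0 : Set M0)
  (a b : ℕ → Fin r → PS O σ) (P : Type) [CommRing P] (φ : P →+* PS O σ)
  (I₀ J₀ 𝔵 : Ideal P) (h : P) (𝔮 : Ideal (PS O σ)),
  Op O κ r B → Lev O r B C (y1 O σ) M π N M0 π0 N0 →
  (∀ n s (w : M n),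
    (y1 O σ s ^ 2 - io O σ r (a n s) * y1 O σ s + io O σ r (b n s)) • w = 0) →
  (∀ p, Com B π (io O σ r (φ p))) → (∀ u ∈ I₀, ∀ n (w : M n), io O σ r (φ u) • w = 0) →
  𝔵.IsPrime → (∀ u, (∀ w ∈ N0, io O σ r (φ u) • w = 0) → u ∈ 𝔵) → h ∉ 𝔵 →
  (∀ u ∈ J₀, h * u ∈ I₀) → (J₀.map φ).IsPrime →
  ringKrullDim (PS O σ ⧸ J₀.map φ) ≤ (1 + Fintype.card κ + r : ℕ) →
  𝔮.IsPrime → J₀.map φ ≤ 𝔮 → (∀ n s, a n s ∈ 𝔮 ∧ b n s ∈ 𝔮) →
    ∃ L0 : Submodule (PS O (σ ⊕ Fin r)) M0, L0.FG ∧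
      (∀ i v, π0 v ∈ L0 → π0 (B i v) ∈ L0) ∧
      ∀ u : PS O σ, (∀ w ∈ L0, io O σ r u • w = 0) → u ∈ 𝔮

end Vale.Agent.P022K.PL
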