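import Vale.Agent.P022K.PL.Defs
import Vale.Agent.P022D.PA.Lim
import Vale.Agent.P022D.CA.Cpl

/-!
# P022K, block PL: row LIMOP (limits of sequences of maps along an ultrafilter)
-/

set_option linter.all false

noncomputable section

namespace Vale.Agent.P022K.PL

open IsLocalRing Filter MvPowerSeries
open Vale.Agent.P022D.Core (PS io y1)
open Vale.Agent.P022D.PA (Base Cv)

/-- power series rings over the coefficient ring are base rings -/
theorem base_ps (O σ : Type) [CommRing O] [IsDomain O] [IsDiscreteValuationRing O] [hO : Cf O]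
    [Fintype σ] : Base (PS O σ) := by
  have _ := hO.fin
  exact { cpl := P022D.CA.Cpl.isAdicCompleteV hO.cpl, fin := P022D.CA.Cpl.finite_residue }

/-- a sequence in a finite module over a base ring has a limit along an ultrafilter -/
theorem mod_lim {A V : Type} [CommRing A] [Base A] [AddCommGroup V] [Module A V]
    [Module.Finite A V] (U : Ultrafilter ℕ) (z : ℕ → V) :
    ∃ v : V, ∀ j : ℕ, ∀ᶠ n in (U : Filter ℕ),
      v - z n ∈ maximalIdeal A ^ j • (⊤ : Submodule A V) := by
  obtain ⟨b, g, hg⟩ := Module.Finite.exists_fin (R := A) (M := V)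
  have h1 : ∀ n, ∃ c : Fin b → A, ∑ i, c i • g i = z n := fun n =>
    (Submodule.mem_span_range_iff_exists_fun A).1 (hg ▸ Submodule.mem_top)
  choose c hc using h1
  choose a ha using fun i => P022D.PA.lim A U fun n => c n i
  refine ⟨∑ i, a i • g i, fun j => ?_⟩
  refine (eventually_all.2 fun i => ha i j).mono fun n hn => ?_
  rw [← hc n, ← Finset.sum_sub_distrib]
  refine Submodule.sum_mem _ fun i _ => ?_
  rw [← sub_smul, ← neg_sub, neg_smul]
  exact Submodule.neg_mem _ (Submodule.smul_mem_smul (hn i) Submodule.mem_top)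

/-- Krull intersection -/
theorem mod_sep {A V : Type} [CommRing A] [IsNoetherianRing A] [IsLocalRing A] [AddCommGroup V]
    [Module A V] [Module.Finite A V] {v : V}
    (h : ∀ j : ℕ, v ∈ maximalIdeal A ^ j • (⊤ : Submodule A V)) : v = 0 := by
  have h1 := Ideal.iInf_pow_smul_eq_bot_of_isLocalRing (M := V) (maximalIdeal A)
    (maximalIdeal.isMaximal A).ne_top
  rw [← Submodule.mem_bot A, ← h1, Submodule.mem_iInf]
  exact h

/-- Krull intersection modulo a submodule -/
theorem mod_clo {A V : Type} [CommRing A] [IsNoetherianRing A] [IsLocalRing A] [AddCommGroup V]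
    [Module A V] [Module.Finite A V] (K : Submodule A V) {v : V}
    (h : ∀ j : ℕ, ∃ l ∈ K, v - l ∈ maximalIdeal A ^ j • (⊤ : Submodule A V)) : v ∈ K := by
  rw [← Submodule.Quotient.mk_eq_zero]
  refine mod_sep (A := A) fun j => ?_
  obtain ⟨l, hl, h1⟩ := h j
  have h2 : K.mkQ (v - l) ∈ (maximalIdeal A ^ j • (⊤ : Submodule A V)).map K.mkQ :=
    Submodule.mem_map_of_mem h1
  rw [Submodule.map_smul'', map_sub, Submodule.mkQ_apply, Submodule.mkQ_apply,
    (Submodule.Quotient.mk_eq_zero K).2 hl, sub_zero] at h2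
  exact Submodule.smul_mono le_rfl le_top h2

section
variable {O κ : Type} [CommRing O] [IsLocalRing O] {r : ℕ} {V : Type} [AddCommGroup V]
  [Module (PS O (κ ⊕ Fin r)) V]

theorem Fl_anti {j j' : ℕ} (h : j ≤ j') {v : V} (hv : v ∈ Fl O κ r V j') : v ∈ Fl O κ r V j :=
  Submodule.smul_mono_left (Ideal.pow_le_pow_right h) hv

theorem Fl_zero (v : V) : v ∈ Fl O κ r V 0 := by
  simp [Fl]

theorem Fl_sep [IsNoetherianRing O] [Fintype κ] [Module.Finite (PS O (κ ⊕ Fin r)) V] {v : V}
    (h : ∀ j, v ∈ Fl O κ r V j) : v = 0 :=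
  mod_sep (A := PS O (κ ⊕ Fin r)) h

theorem Fl_clo [IsNoetherianRing O] [Fintype κ] [Module.Finite (PS O (κ ⊕ Fin r)) V]
    (K : Submodule (PS O (κ ⊕ Fin r)) V) {v : V}
    (h : ∀ j, ∃ l ∈ K, v - l ∈ Fl O κ r V j) : v ∈ K :=
  mod_clo (A := PS O (κ ⊕ Fin r)) K h

end

theorem limop : LIMOP := by
  intro O κ _ _ _ _ _ r V _ _ _ U hU
  have _ := base_ps O (κ ⊕ Fin r)
  refine ⟨fun F => ?_, fun F f f' h h' => ?_, fun F f h hF v w => ?_,
    fun F F' f f' h h' hc v j => ?_⟩
  · choose f hf using fun v => mod_lim (A := PS O (κ ⊕ Fin r)) U fun n => F n v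
    exact ⟨f, fun v j => hf v j⟩
  · funext v
    refine sub_eq_zero.1 (Fl_sep (O := O) (κ := κ) (r := r) fun j => ?_)
    obtain ⟨n, h1, h2⟩ := ((h v j).and (h' v j)).exists
    have := Submodule.sub_mem _ h1 h2
    rwa [sub_sub_sub_cancel_right] at this
  · refine sub_eq_zero.1 (Fl_sep (O := O) (κ := κ) (r := r) fun j => ?_)
    obtain ⟨n, ⟨⟨h1, h2⟩, h3⟩, h4⟩ := ((((h (v + w) j).and (h v j)).and (h w j)).and
      (hU (eventually_ge_atTop j))).exists
    have h5 := Submodule.add_mem _ (Submodule.sub_mem _ (Submodule.sub_mem _ h1 h2) h3)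
      (Fl_anti h4 (hF n v w))
    convert h5 using 1
    abel
  · obtain ⟨j', hj⟩ := hc j
    refine (((h (f' v) j).and (h' v j')).and hj).mono fun n hn => ?_
    have := Submodule.add_mem _ hn.1.1 (hn.2 _ _ hn.1.2)
    rwa [sub_add_sub_cancel] at this

end Vale.Agent.P022K.PL
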