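import Vale.Agent.P022K.PL.Defs
import Vale.Agent.P022D.CA.Cpl

/-!
# P022K, block PL: rows ACC, GRO, UPP, DIM
-/

set_option linter.all false

noncomputable section

namespace Vale.Agent.P022K.PL

open IsLocalRing Filter MvPowerSeries
open Vale.Agent.P022D.Core (PS io y1)
open Vale.Agent.P022D.PA (Base Cv)
open Vale.Agent.P022D.CA.Cpl

namespace Gr

section fl

variable {O κ : Type} [CommRing O] [IsLocalRing O] {r : ℕ} {V : Type} [AddCommGroup V]
  [Module (PS O (κ ⊕ Fin r)) V]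

theorem fl_zero (v : V) : v ∈ Fl O κ r V 0 := by
  simp [Fl]

theorem fl_le {i j : ℕ} (h : i ≤ j) : Fl O κ r V j ≤ Fl O κ r V i :=
  Submodule.smul_mono_left (Ideal.pow_le_pow_right h)

theorem fl_smul {a : PS O (κ ⊕ Fin r)} {d j : ℕ} (ha : a ∈ maximalIdeal _ ^ d) {v : V}
    (hv : v ∈ Fl O κ r V j) : a • v ∈ Fl O κ r V (d + j) := by
  unfold Fl at *
  rw [pow_add, Submodule.mul_smul]
  exact Submodule.smul_mem_smul ha hv

theorem fl_smul1 {a : PS O (κ ⊕ Fin r)} {j : ℕ} (ha : a ∈ maximalIdeal _) {v : V}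
    (hv : v ∈ Fl O κ r V j) : a • v ∈ Fl O κ r V (j + 1) := by
  rw [add_comm]
  exact fl_smul (by rwa [pow_one]) hv

theorem X_mem (t : κ ⊕ Fin r) : (X t : PS O (κ ⊕ Fin r)) ∈ maximalIdeal _ := by
  rw [mem_max_iff, constantCoeff_X]
  exact Ideal.zero_mem _

theorem C_mem {o : O} (h : o ∈ maximalIdeal O) : (C o : PS O (κ ⊕ Fin r)) ∈ maximalIdeal _ := by
  rwa [mem_max_iff, constantCoeff_C]

variable {B : κ → V →+ V} {L : AddSubgroup V}

/-- a variable maps `L` to `L` up to terms of higher order -/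
theorem step (hB : Op O κ r B) (hy : ∀ s : Fin r, ∀ v ∈ L, y1 O κ s • v ∈ L)
    (hs : Stab B (L : Set V)) (t : κ ⊕ Fin r) {j : ℕ} {v : V} (hv : v ∈ L)
    (hj : v ∈ Fl O κ r V j) :
    ∃ l ∈ L, l - (X t : PS O (κ ⊕ Fin r)) • v ∈ Fl O κ r V (j + 2) := by
  rcases t with i | s
  · exact ⟨B i v, hs i v hv, hB.ap i j v hj⟩
  · exact ⟨_, hy s v hv, by rw [y1, sub_self]; exact Submodule.zero_mem _⟩

variable (O κ r) in
/-- the initial forms of degree `j` of `L` -/
def ini (L : AddSubgroup V) (hC : ∀ o, ∀ v ∈ L, (C o : PS O (κ ⊕ Fin r)) • v ∈ L) (j : ℕ) :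
    Submodule (PS O (κ ⊕ Fin r)) V where
  carrier := {v | ∃ l ∈ L, l ∈ Fl O κ r V j ∧ v - l ∈ Fl O κ r V (j + 1)}
  zero_mem' := ⟨0, L.zero_mem, Submodule.zero_mem _, by simp⟩
  add_mem' := by
    rintro a b ⟨l, h1, h2, h3⟩ ⟨l', h1', h2', h3'⟩
    exact ⟨l + l', L.add_mem h1 h1', Submodule.add_mem _ h2 h2', by
      rw [add_sub_add_comm]; exact Submodule.add_mem _ h3 h3'⟩
  smul_mem' := by
    rintro a v ⟨l, h1, h2, h3⟩
    refine ⟨(C (constantCoeff a) : PS O (κ ⊕ Fin r)) • l, hC _ l h1, Submodule.smul_mem _ _ h2, ?_⟩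
    have e : a • v - (C (constantCoeff a) : PS O (κ ⊕ Fin r)) • l =
        a • (v - l) + (a - C (constantCoeff a)) • l := by
      rw [smul_sub, sub_smul]; abel
    rw [e]
    refine Submodule.add_mem _ (Submodule.smul_mem _ _ h3) (fl_smul1 ?_ h2)
    rw [mem_max_iff, map_sub, constantCoeff_C, sub_self]
    exact Ideal.zero_mem _

variable [Fintype κ]

/-- the filtration by the initial forms -/
def fil (hB : Op O κ r B) (L : AddSubgroup V)
    (hC : ∀ o, ∀ v ∈ L, (C o : PS O (κ ⊕ Fin r)) • v ∈ L)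
    (hy : ∀ s : Fin r, ∀ v ∈ L, y1 O κ s • v ∈ L) (hs : Stab B (L : Set V)) :
    (maximalIdeal (PS O (κ ⊕ Fin r))).Filtration V where
  N := ini O κ r L hC
  mono := by
    rintro j v ⟨l, h1, h2, h3⟩
    refine ⟨0, L.zero_mem, Submodule.zero_mem _, ?_⟩
    have := Submodule.add_mem _ (fl_le (Nat.le_succ _) h3) h2
    rwa [sub_add_cancel, ← sub_zero v] at this
  smul_le := by
    intro j
    rw [Submodule.smul_le]
    rintro a ha v ⟨l, h1, h2, h3⟩
    have e : a • v = a • l + a • (v - l) := by rw [smul_sub]; abel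
    rw [e]
    refine Submodule.add_mem _ ?_ ⟨0, L.zero_mem, Submodule.zero_mem _, by
      rw [sub_zero]; exact fl_smul1 ha h3⟩
    obtain ⟨g, hg, -⟩ := exists_decompV (a - C (constantCoeff a))
      (by rw [map_sub, constantCoeff_C, sub_self])
    have e2 : a = C (constantCoeff a) + ∑ s, g s * X s := by
      simp only [mul_comm (g _)]; rw [← hg]; ring
    rw [e2, add_smul, Finset.sum_smul]
    refine Submodule.add_mem _ ⟨_, hC _ l h1, fl_smul1 (C_mem ((mem_max_iff a).1 ha)) h2, by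
      rw [sub_self]; exact Submodule.zero_mem _⟩ (Submodule.sum_mem _ fun t _ => ?_)
    rw [mul_smul]
    refine Submodule.smul_mem _ _ ?_
    obtain ⟨l', h4, h5⟩ := step hB hy hs t h1 h2
    refine ⟨l', h4, ?_, by rw [← neg_sub]; exact Submodule.neg_mem _ h5⟩
    have := Submodule.add_mem _ (fl_le (Nat.le_succ _) h5) (fl_smul1 (X_mem t) h2)
    rwa [sub_add_cancel] at this

end fl

end Gr

open Gr

theorem acc : ACC := by
  intro O κ _ _ _ _ r V _ _ _ B hB L hm hC hy hs
  let F := fun n => fil hB (L n) (hC n) (hy n) (hs n)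
  let G := (maximalIdeal (PS O (κ ⊕ Fin r))).stableFiltration (⊤ : Submodule _ V)
  have hG : G.submodule.FG :=
    (G.submodule_fg_iff_stable fun i => IsNoetherian.noetherian _).2
      (Ideal.stableFiltration_stable _ _)
  have hN := isNoetherian_of_fg_of_noetherian _ hG
  rw [isNoetherian_submodule] at hN
  have hle : ∀ n, (F n).submodule ≤ G.submodule := fun n f hf i => by
    obtain ⟨l, -, h2, h3⟩ := hf i
    have := Submodule.add_mem _ (fl_le (Nat.le_succ _) h3) h2
    rwa [sub_add_cancel] at this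
  have hmo : Monotone fun n => (F n).submodule := fun n n' h f hf i => by
    obtain ⟨l, h1, h2, h3⟩ := hf i
    exact ⟨l, hm h h1, h2, h3⟩
  obtain ⟨c, hc⟩ := (hN _ (iSup_le hle)).stabilizes_of_iSup_eq ⟨_, hmo⟩ rfl
  refine ⟨c, fun n v hv j => ?_⟩
  have key : ∀ i, ∀ w ∈ (F (max n c)).N i, w ∈ (F c).N i := fun i w hw => by
    have h1 : PolynomialModule.single (PS O (κ ⊕ Fin r)) i w ∈ (F (max n c)).submodule := by
      intro k
      rw [PolynomialModule.coeff_single, Finsupp.single_apply]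
      split_ifs with h
      · exact h ▸ hw
      · exact Submodule.zero_mem _
    have h2 : PolynomialModule.single (PS O (κ ⊕ Fin r)) i w ∈ (F c).submodule := by
      have : (F (max n c)).submodule ≤ (F c).submodule := by
        refine (le_iSup (fun n => (F n).submodule) _).trans ?_
        exact hc.le
      exact this h1
    have := h2 i
    rwa [PolynomialModule.coeff_single, Finsupp.single_eq_same] at this
  induction j with
  | zero => exact ⟨0, (L c).zero_mem, fl_zero _⟩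
  | succ j ih =>
    obtain ⟨l, h1, h2⟩ := ih
    obtain ⟨l', h3, -, h4⟩ := key j (v - l) ⟨v - l, (L _).sub_mem (hm (le_max_left _ _) hv)
      (hm (le_max_right _ _) h1), h2, by rw [sub_self]; exact Submodule.zero_mem _⟩
    exact ⟨l + l', (L c).add_mem h1 h3, by rwa [← sub_sub]⟩

namespace Gr

section ord

variable {O τ : Type} [CommRing O] {ϖ : O}

theorem C_dvd {a : O} {f : PS O τ} : (C a : PS O τ) ∣ f ↔ ∀ n, a ∣ coeff n f := by
  constructor
  · rintro ⟨g, rfl⟩ n
    rw [coeff_C_mul]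
    exact Dvd.intro _ rfl
  · intro h
    choose g hg using h
    exact ⟨g, MvPowerSeries.ext fun n => (hg n).trans (coeff_C_mul n g a).symm⟩

theorem coeff_rs (f : PS O τ) (n : τ →₀ ℕ) :
    coeff n (rescale (fun _ => ϖ) f) = ϖ ^ n.degree * coeff n f := by
  rw [coeff_rescale, Finsupp.prod, Finset.prod_pow_eq_pow_sum]
  rfl

theorem rs_mon (n : τ →₀ ℕ) (a : O) : rescale (fun _ => ϖ) (monomial n a : PS O τ) =
    C ϖ ^ n.degree * monomial n a := by
  classical
  ext m
  rw [coeff_rs, ← map_pow, coeff_C_mul, coeff_monomial]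
  split_ifs with h
  · rw [h]
  · rw [mul_zero, mul_zero]

variable [IsDomain O] [IsDiscreteValuationRing O]

theorem mem_pow [Fintype τ] (hϖ : Irreducible ϖ) {j : ℕ} {f : PS O τ} :
    f ∈ maximalIdeal (PS O τ) ^ j ↔ (C ϖ : PS O τ) ^ j ∣ rescale (fun _ => ϖ) f := by
  have e : f ∈ maximalIdeal (PS O τ) ^ j ↔ f ∈ JI τ (maximalIdeal O) j :=
    ⟨fun h => pow_le_JI j h, fun h => JI_le_pow j h⟩
  rw [e, mem_JI, ← map_pow, C_dvd]
  refine forall_congr' fun n => ?_
  rw [coeff_rs, hϖ.maximalIdeal_eq, Ideal.span_singleton_pow, Ideal.mem_span_singleton]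
  rcases le_total j n.degree with h | h
  · rw [Nat.sub_eq_zero_of_le h, pow_zero]
    exact iff_of_true (one_dvd _) ((pow_dvd_pow _ h).mul_right _)
  · conv_rhs => rw [← Nat.add_sub_cancel' h, pow_add]
    rw [mul_dvd_mul_iff_left (pow_ne_zero _ hϖ.ne_zero)]

theorem C_prime (hϖ : Irreducible ϖ) {f g : PS O τ} (h : (C ϖ : PS O τ) ∣ f * g) :
    (C ϖ : PS O τ) ∣ f ∨ (C ϖ : PS O τ) ∣ g := by
  have e : ∀ f : PS O τ, (C ϖ : PS O τ) ∣ f ↔ MvPowerSeries.map (residue O) f = 0 := fun f => by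
    rw [C_dvd, MvPowerSeries.ext_iff]
    refine forall_congr' fun n => ?_
    rw [coeff_map, map_zero, residue_eq_zero_iff, hϖ.maximalIdeal_eq, Ideal.mem_span_singleton]
  rw [e, map_mul] at h
  rw [e, e]
  exact mul_eq_zero.1 h

end ord

theorem mem_fl {O κ : Type} [CommRing O] [IsLocalRing O] {r : ℕ} {V : Type} [AddCommGroup V]
    [Module (PS O (κ ⊕ Fin r)) V] {ι : Type} [Fintype ι]
    (b : Module.Basis ι (PS O (κ ⊕ Fin r)) V) {j : ℕ} {v : V} :
    v ∈ Fl O κ r V j ↔ ∀ i, b.repr v i ∈ maximalIdeal (PS O (κ ⊕ Fin r)) ^ j := by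
  constructor
  · intro h i
    refine Submodule.smul_induction_on h (fun a ha w _ => ?_) fun x y hx hy => ?_
    · rw [map_smul, Finsupp.smul_apply, smul_eq_mul]
      exact Ideal.mul_mem_right _ _ ha
    · rw [map_add, Finsupp.add_apply]
      exact Ideal.add_mem _ hx hy
  · intro h
    rw [← b.sum_repr v]
    exact Submodule.sum_mem _ fun i _ => Submodule.smul_mem_smul (h i) Submodule.mem_top

/-- the generators of the maximal ideal -/
def gn {O : Type} (τ : Type) [CommRing O] (ϖ : O) : Option τ → PS O τ := fun t => t.elim (C ϖ) X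

/-- the exponent of the variables -/
def ex {τ : Type} [Fintype τ] (e : Option τ → ℕ) : τ →₀ ℕ :=
  Finsupp.equivFunOnFinite.symm fun t => e (some t)

theorem ex_deg {τ : Type} [Fintype τ] (e : Option τ → ℕ) : ∑ t, e t = e none + (ex e).degree := by
  rw [Fintype.sum_option, Finsupp.degree_eq_sum]
  rfl

theorem rs_prod {O τ : Type} [CommRing O] [Fintype τ] (ϖ : O) (e : Option τ → ℕ) :
    rescale (fun _ => ϖ) (∏ t, gn τ ϖ t ^ e t) = C ϖ ^ (∑ t, e t) * monomial (ex e) 1 := by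
  have e0 : (monomial (ex e) (ϖ ^ e none) : PS O τ) = C ϖ ^ e none * monomial (ex e) 1 := by
    rw [← map_pow, ← monomial_zero_eq_C_apply, monomial_mul_monomial, zero_add, mul_one]
  have e1 : ∏ t, gn τ ϖ t ^ e t = monomial (ex e) (ϖ ^ e none) := by
    rw [Fintype.prod_option, e0, monomial_one_eq, Finsupp.prod_fintype _ _ fun _ => pow_zero _]
    rfl
  rw [e1, rs_mon, ex_deg, pow_add, e0]
  ring

theorem exists_w {O κ : Type} [CommRing O] [IsLocalRing O] {r : ℕ} {V : Type} [AddCommGroup V]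
    [Module (PS O (κ ⊕ Fin r)) V] {B : κ → V →+ V} {L : AddSubgroup V} (hB : Op O κ r B)
    (hC : ∀ o, ∀ v ∈ L, (C o : PS O (κ ⊕ Fin r)) • v ∈ L)
    (hy : ∀ s : Fin r, ∀ v ∈ L, y1 O κ s • v ∈ L) (hs : Stab B (L : Set V)) {ϖ : O}
    (hm : ϖ ∈ maximalIdeal O) {v : V} (hv : v ∈ L) {a : ℕ} (ha : v ∈ Fl O κ r V a)
    (e : Option (κ ⊕ Fin r) → ℕ) (s : Finset (Option (κ ⊕ Fin r))) :
    ∏ t ∈ s, gn _ ϖ t ^ e t ∈ maximalIdeal _ ^ (∑ t ∈ s, e t) ∧
      ∃ w ∈ L, w - (∏ t ∈ s, gn _ ϖ t ^ e t) • v ∈ Fl O κ r V (∑ t ∈ s, e t + a + 1) := by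
  classical
  let P : PS O (κ ⊕ Fin r) → ℕ → Prop := fun p d => p ∈ maximalIdeal _ ^ d ∧
    ∃ w ∈ L, w - p • v ∈ Fl O κ r V (d + a + 1)
  have hg : ∀ t, gn _ ϖ t ∈ maximalIdeal (PS O (κ ⊕ Fin r)) := fun t => by
    rcases t with _ | t
    exacts [C_mem hm, X_mem t]
  have P1 : ∀ t p d, P p d → P (gn _ ϖ t * p) (d + 1) := by
    rintro t p d ⟨h1, w, h2, h3⟩
    refine ⟨by rw [pow_succ']; exact Ideal.mul_mem_mul (hg t) h1, ?_⟩
    have h4 : w ∈ Fl O κ r V (d + a) := by
      have := Submodule.add_mem _ (fl_le (Nat.le_succ _) h3) (fl_smul h1 ha)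
      rwa [sub_add_cancel] at this
    obtain ⟨l, h5, h6⟩ : ∃ l ∈ L, l - gn (κ ⊕ Fin r) ϖ t • w ∈ Fl O κ r V (d + a + 2) := by
      rcases t with _ | t
      · exact ⟨_, hC ϖ w h2, by
          rw [show gn (κ ⊕ Fin r) ϖ none = C ϖ from rfl, sub_self]; exact zero_mem _⟩
      · exact step hB hy hs t h2 h4
    refine ⟨l, h5, ?_⟩
    have := Submodule.add_mem _ h6 (fl_smul1 (hg t) h3)
    rw [smul_sub, sub_add_sub_cancel, smul_smul] at this
    rwa [show d + 1 + a + 1 = d + a + 2 by ring]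
  have P2 : ∀ t n p d, P p d → P (gn _ ϖ t ^ n * p) (n + d) := by
    intro t n p d h
    induction n with
    | zero => simpa using h
    | succ n ih =>
      have := P1 t _ _ ih
      rwa [← mul_assoc, ← pow_succ', add_right_comm] at this
  change P _ _
  induction s using Finset.induction_on with
  | empty => exact ⟨by simp, v, hv, by simp⟩
  | insert t s ht ih =>
    rw [Finset.prod_insert ht, Finset.sum_insert ht]
    exact P2 t _ _ _ ih

/-- forms with a unit coefficient are regular on the graded ring -/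
theorem form {O τ E : Type} [CommRing O] [IsDomain O] [IsDiscreteValuationRing O] [Fintype τ]
    {ϖ : O} (hϖ : Irreducible ϖ) {f : PS O τ} {a d : ℕ} (hf : f ∈ maximalIdeal _ ^ a)
    (c : E → Option τ → ℕ) (hc : Function.Injective c) (S : Finset E)
    (hS : ∀ e ∈ S, ∑ t, c e t = d) (ε : E → ℤ) {e₀ : E} (h0 : e₀ ∈ S) (hε : ε e₀ = 1 ∨ ε e₀ = -1)
    (h : (∑ e ∈ S, (ε e : PS O τ) * ∏ t, gn τ ϖ t ^ c e t) * f ∈ maximalIdeal _ ^ (d + a + 1)) :
    f ∈ maximalIdeal _ ^ (a + 1) := by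
  obtain ⟨f₁, hf₁⟩ := (mem_pow hϖ).1 hf
  have h6 := (mem_pow hϖ).1 h
  have h7 : rescale (fun _ => ϖ) (∑ e ∈ S, (ε e : PS O τ) * ∏ t, gn τ ϖ t ^ c e t) =
      C ϖ ^ d * ∑ e ∈ S, (ε e : PS O τ) * monomial (ex (c e)) 1 := by
    rw [map_sum, Finset.mul_sum]
    refine Finset.sum_congr rfl fun e he => ?_
    rw [map_mul, map_intCast, rs_prod, hS e he, mul_left_comm]
  have hC0 : (C ϖ : PS O τ) ≠ 0 := fun h =>
    hϖ.ne_zero (by simpa using congrArg constantCoeff h)
  rw [map_mul, h7, hf₁, mul_mul_mul_comm, ← pow_add,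
    pow_succ, mul_dvd_mul_iff_left (pow_ne_zero _ hC0)] at h6
  rcases C_prime hϖ h6 with h8 | h8
  · have h9 := C_dvd.1 h8 (ex (c e₀))
    rw [map_sum, Finset.sum_eq_single_of_mem e₀ h0] at h9
    · rcases hε with h | h <;> rw [h] at h9
      · exact (hϖ.not_isUnit (isUnit_of_dvd_one (by simpa using h9))).elim
      · exact (hϖ.not_isUnit (isUnit_of_dvd_one (by simpa using h9))).elim
    · intro e he hne'
      rw [← zsmul_eq_mul, map_zsmul, coeff_monomial_ne, smul_zero]
      intro h1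
      refine hne' (hc (funext fun t => ?_))
      rcases t with _ | t
      · have h4 := (hS e he).trans (hS e₀ h0).symm
        rw [ex_deg, ex_deg, h1] at h4
        exact Nat.add_right_cancel h4
      · exact (DFunLike.congr_fun h1 t).symm
  · exact (mem_pow hϖ).2 (by rw [hf₁, pow_succ]; exact mul_dvd_mul_left _ h8)

end Gr

theorem gro : GRO := by
  intro O κ _ _ _ _ r V _ _ _ _ B hB L hL hC hy hs
  classical
  obtain ⟨ϖ, hϖ⟩ := IsDiscreteValuationRing.exists_irreducible O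
  have hm : ϖ ∈ maximalIdeal O := hϖ.maximalIdeal_eq ▸ Ideal.mem_span_singleton_self ϖ
  obtain ⟨v, hv, hv0⟩ : ∃ v ∈ L, v ≠ 0 := by
    by_contra h
    push Not at h
    exact hL ((AddSubgroup.eq_bot_iff_forall L).2 h)
  have hex : ∃ j, v ∉ Fl O κ r V (j + 1) := by
    by_contra h
    push Not at h
    have : v ∈ ⨅ j : ℕ, maximalIdeal (PS O (κ ⊕ Fin r)) ^ j • (⊤ : Submodule _ V) :=
      (Submodule.mem_iInf _).2 fun j => fl_le (Nat.le_succ j) (h j)
    rw [Ideal.iInf_pow_smul_eq_bot_of_isLocalRing _ (maximalIdeal.isMaximal _).ne_top] at this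
    exact hv0 this
  obtain ⟨a, ha, ha'⟩ : ∃ a, v ∈ Fl O κ r V a ∧ v ∉ Fl O κ r V (a + 1) := by
    refine ⟨Nat.find hex, ?_, Nat.find_spec hex⟩
    rcases h : Nat.find hex with _ | k
    · exact fl_zero v
    · exact not_not.1 (Nat.find_min hex (by omega))
  let b := Module.Free.chooseBasis (PS O (κ ⊕ Fin r)) V
  obtain ⟨i₀, hi₀⟩ := not_forall.1 (mt (mem_fl b).2 ha')
  have P3 := fun e => exists_w hB hC hy hs hm hv ha e Finset.univ
  choose w hw hw' using fun e => (P3 e).2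
  refine ⟨a + (1 + Fintype.card κ + r), fun u => ?_⟩
  let E := Option (κ ⊕ Fin r) → Fin u
  let c : E → Option (κ ⊕ Fin r) → ℕ := fun e t => e t
  have hE : Fintype.card (E → Bool) = 2 ^ u ^ (1 + Fintype.card κ + r) := by
    simp only [E, Fintype.card_fun, Fintype.card_bool, Fintype.card_fin, Fintype.card_option,
      Fintype.card_sum]
    congr 2
    ring
  obtain ⟨q⟩ : Nonempty (Fin (2 ^ u ^ (1 + Fintype.card κ + r)) ≃ (E → Bool)) :=
    ⟨(Fintype.equivFinOfCardEq hE).symm⟩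
  refine ⟨fun i => ∑ e, if q i e then w (c e) else 0, fun i => L.sum_mem fun e _ => ?_,
    fun i i' h => q.injective ?_⟩
  · split_ifs
    exacts [hw _, L.zero_mem]
  by_contra hne
  let ε : E → ℤ := fun e => (if q i e then 1 else 0) - if q i' e then 1 else 0
  have hε : ∀ e, q i e ≠ q i' e → ε e = 1 ∨ ε e = -1 := fun e he => by
    simp only [ε]
    revert he
    cases q i e <;> cases q i' e <;> simp
  have hε0 : ∀ e, q i e = q i' e → ε e = 0 := fun e he => by simp only [ε, he, sub_self]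
  have h1 : ∑ e, ε e • w (c e) ∈ Fl O κ r V ((a + (1 + Fintype.card κ + r)) * (u + 1)) := by
    convert h using 1
    rw [← Finset.sum_sub_distrib]
    refine Finset.sum_congr rfl fun e _ => ?_
    simp only [ε, sub_smul, ite_smul, one_smul, zero_smul]
  obtain ⟨e₀, he₀, hmin⟩ := (Finset.univ.filter fun e => q i e ≠ q i' e).exists_min_image
    (fun e => ∑ t, c e t) (by
      obtain ⟨e, he⟩ := Function.ne_iff.1 hne
      exact ⟨e, Finset.mem_filter.2 ⟨Finset.mem_univ _, he⟩⟩)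
  obtain ⟨d, hd⟩ : ∃ d, ∑ t, c e₀ t = d := ⟨_, rfl⟩
  have hdl : d + a + 1 ≤ (a + (1 + Fintype.card κ + r)) * (u + 1) := by
    have : d ≤ (1 + Fintype.card κ + r) * u := by
      refine hd ▸ (Finset.sum_le_card_nsmul _ _ u fun t _ => (e₀ t).2.le).trans (le_of_eq ?_)
      simp only [Finset.card_univ, Fintype.card_option, Fintype.card_sum, Fintype.card_fin,
        smul_eq_mul]
      ring
    nlinarith [Nat.zero_le (a * u), Nat.zero_le (Fintype.card κ), Nat.zero_le r]
  let S := Finset.univ.filter fun e : E => ∑ t, c e t = d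
  have h3 : ∑ e, ε e • w (c e) - (∑ e ∈ S, (ε e : PS O (κ ⊕ Fin r)) *
      ∏ t, gn _ ϖ t ^ c e t) • v ∈ Fl O κ r V (d + a + 1) := by
    rw [Finset.sum_smul, Finset.sum_filter, ← Finset.sum_sub_distrib]
    refine Submodule.sum_mem _ fun e _ => ?_
    by_cases h0 : q i e = q i' e
    · simp [hε0 e h0]
    split_ifs with h4
    · rw [mul_smul, Int.cast_smul_eq_zsmul, ← smul_sub]
      exact zsmul_mem (h4 ▸ hw' (c e)) _
    · have h5 : d < ∑ t, c e t := lt_of_le_of_ne
        (hd ▸ hmin e (Finset.mem_filter.2 ⟨Finset.mem_univ _, h0⟩)) (Ne.symm h4)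
      have := Submodule.add_mem _ (fl_le (Nat.le_succ _) (hw' (c e))) (fl_smul (P3 (c e)).1 ha)
      rw [sub_add_cancel] at this
      rw [sub_zero]
      exact zsmul_mem (fl_le (by omega) this) _
  have h2 := Submodule.sub_mem _ (fl_le hdl h1) h3
  rw [sub_sub_cancel] at h2
  have h6 := (mem_fl b).1 h2 i₀
  rw [map_smul, Finsupp.smul_apply, smul_eq_mul] at h6
  exact hi₀ (form hϖ ((mem_fl b).1 ha i₀) c
    (fun e e' h => funext fun t => Fin.ext (congrFun h t)) S
    (fun e he => (Finset.mem_filter.1 he).2) ε (Finset.mem_filter.2 ⟨Finset.mem_univ _, hd⟩)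
    (hε e₀ (Finset.mem_filter.1 he₀).2) h6)

namespace Gr

section cov

variable {R L : Type} [CommRing R] [AddCommGroup L] [Module R L]

/-- `L` is covered by `n` cosets of `N` -/
def Cov (N : Submodule R L) (n : ℕ) : Prop :=
  ∃ S : Finset L, S.card ≤ n ∧ ∀ v, ∃ s ∈ S, v - s ∈ N

theorem Cov.mono {N N' : Submodule R L} {n : ℕ} (h : Cov N n) (e : N ≤ N') : Cov N' n := by
  obtain ⟨S, h1, h2⟩ := h
  exact ⟨S, h1, fun v => (h2 v).imp fun s hs => ⟨hs.1, e hs.2⟩⟩

theorem Cov.pow {N : Submodule R L} {n : ℕ} {x : R} (h : Cov (N ⊔ Ideal.span {x} • ⊤) n)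
    (j : ℕ) : Cov (N ⊔ Ideal.span {x ^ j} • ⊤) (n ^ j) := by
  classical
  have mem : ∀ (y : R) (v : L), v ∈ N ⊔ Ideal.span {y} • ⊤ ↔ ∃ w, v - y • w ∈ N := fun y v => by
    rw [Submodule.mem_sup, Submodule.ideal_span_singleton_smul]
    constructor
    · rintro ⟨a, ha, b, hb, rfl⟩
      obtain ⟨w, -, rfl⟩ := (Submodule.mem_smul_pointwise_iff_exists _ _ _).1 hb
      exact ⟨w, by simpa using ha⟩
    · rintro ⟨w, hw⟩
      exact ⟨_, hw, _, Submodule.smul_mem_pointwise_smul w y _ Submodule.mem_top, by simp⟩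
  obtain ⟨S, h1, h2⟩ := h
  induction j with
  | zero => exact ⟨{0}, by simp, fun v => ⟨0, by simp, (mem _ _).2 ⟨v, by simp⟩⟩⟩
  | succ j ih =>
    obtain ⟨S', h3, h4⟩ := ih
    refine ⟨(S ×ˢ S').image fun p => p.1 + x • p.2, Finset.card_image_le.trans ?_, fun v => ?_⟩
    · rw [Finset.card_product, pow_succ']
      exact Nat.mul_le_mul h1 h3
    · obtain ⟨s, hs, h5⟩ := h2 v
      obtain ⟨v', h5⟩ := (mem _ _).1 h5
      obtain ⟨s', hs', h6⟩ := h4 v'
      obtain ⟨v'', h6⟩ := (mem _ _).1 h6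
      refine ⟨_, Finset.mem_image.2 ⟨(s, s'), Finset.mem_product.2 ⟨hs, hs'⟩, rfl⟩,
        (mem _ _).2 ⟨v'', ?_⟩⟩
      convert N.add_mem h5 (N.smul_mem x h6) using 1
      rw [pow_succ', mul_smul, smul_sub, smul_sub]
      abel

theorem Cov.box (j : ℕ) (s : Finset R) : ∀ {N : Submodule R L} {n : ℕ},
    Cov (N ⊔ Ideal.span (s : Set R) • ⊤) n →
      Cov (N ⊔ Ideal.span ((· ^ j) '' (s : Set R)) • ⊤) (n ^ j ^ s.card) := by
  classical
  induction s using Finset.induction_on with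
  | empty => intro N n h; simpa using h
  | insert x s hx ih =>
    intro N n h
    rw [Finset.coe_insert, Ideal.span_insert, Submodule.sup_smul, ← sup_assoc] at h
    have h1 := ih h
    rw [sup_right_comm] at h1
    have h2 := h1.pow j
    rw [Finset.coe_insert, Set.image_insert_eq, Ideal.span_insert, Submodule.sup_smul,
      ← sup_assoc, sup_right_comm, Finset.card_insert_of_notMem hx, pow_succ, pow_mul]
    exact h2

theorem Cov.pow_le {I : Ideal R} {s : Finset R} {n : ℕ} (hs : (s : Set R) ⊆ I)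
    (h : Cov (Ideal.span (s : Set R) • (⊤ : Submodule R L)) n) (j : ℕ) :
    Cov (I ^ j • (⊤ : Submodule R L)) (n ^ j ^ s.card) := by
  have h1 := Cov.box j s (N := ⊥) (n := n) (h.mono le_sup_right)
  rw [bot_sup_eq] at h1
  refine h1.mono (Submodule.smul_mono_left (Ideal.span_le.2 ?_))
  rintro _ ⟨x, hx, rfl⟩
  exact Ideal.pow_mem_pow (hs hx) j

theorem Cov.card {N : Submodule R L} {n : ℕ} (h : Cov N n) :
    Finite (L ⧸ N) ∧ Nat.card (L ⧸ N) ≤ n := by
  obtain ⟨S, h1, h2⟩ := h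
  have hs : Function.Surjective fun s : S => (Submodule.Quotient.mk s.1 : L ⧸ N) := fun q => by
    obtain ⟨v, rfl⟩ := Submodule.Quotient.mk_surjective N q
    obtain ⟨s, h3, h4⟩ := h2 v
    exact ⟨⟨s, h3⟩, ((Submodule.Quotient.eq N).2 h4).symm⟩
  exact ⟨Finite.of_surjective _ hs, (Nat.card_le_card_of_surjective _ hs).trans (by simpa using h1)⟩

theorem cov_max [Base R] [Module.Finite R L] :
    ∃ n, Cov (maximalIdeal R • (⊤ : Submodule R L)) n := by
  classical
  obtain ⟨k, g, hg⟩ := Module.Finite.exists_fin' R L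
  have := Base.fin (P := R)
  have := Fintype.ofFinite (ResidueField R)
  choose σ hσ using residue_surjective (R := R)
  refine ⟨_, Finset.univ.image fun c : Fin k → ResidueField R => g fun i => σ (c i), le_rfl,
    fun v => ?_⟩
  obtain ⟨c, rfl⟩ := hg v
  refine ⟨_, Finset.mem_image.2 ⟨fun i => residue R (c i), Finset.mem_univ _, rfl⟩, ?_⟩
  rw [← map_sub, pi_eq_sum_univ' (c - _), map_sum]
  refine Submodule.sum_mem _ fun i _ => ?_
  rw [map_smul]
  refine Submodule.smul_mem_smul ?_ Submodule.mem_top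
  rw [← residue_eq_zero_iff, Pi.sub_apply, map_sub, hσ, sub_self]

end cov

/-- a system of parameters -/
theorem exists_par {T : Type} [CommRing T] [IsNoetherianRing T] [IsLocalRing T] (p : Ideal T)
    {t : ℕ} (hd : ringKrullDim (T ⧸ p) ≤ t) : ∃ s : Finset T, (s : Set T) ⊆ maximalIdeal T ∧
      s.card ≤ t ∧ ∃ c : ℕ, maximalIdeal T ^ c ≤ p ⊔ Ideal.span (s : Set T) := by
  classical
  by_cases hp : p = ⊤
  · exact ⟨∅, by simp, by simp, 0, by simp [hp]⟩
  have : Nontrivial (T ⧸ p) := Ideal.Quotient.nontrivial_iff.2 hp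
  have : IsLocalRing (T ⧸ p) :=
    IsLocalRing.of_surjective' (Ideal.Quotient.mk p) Ideal.Quotient.mk_surjective
  obtain ⟨s, hs, hc⟩ := (maximalIdeal (T ⧸ p)).exists_finset_card_eq_height_of_isNoetherianRing
  have h1 : s.card ≤ t := by
    rw [← maximalIdeal_height_eq_ringKrullDim, ← hc] at hd
    exact_mod_cast hd
  have h2 : maximalIdeal (T ⧸ p) ≤ (Ideal.span (s : Set (T ⧸ p))).radical := by
    rw [Ideal.radical_eq_sInf]
    refine le_sInf fun J hJ => hs.2 ⟨hJ.2, hJ.1⟩ (le_maximalIdeal hJ.2.ne_top)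
  obtain ⟨c, hc'⟩ := Ideal.exists_pow_le_of_le_radical_of_fg h2 (IsNoetherian.noetherian _)
  choose σ hσ using Ideal.Quotient.mk_surjective (I := p)
  refine ⟨s.image σ, fun x hx => ?_, Finset.card_image_le.trans h1, c, fun a ha => ?_⟩
  · obtain ⟨y, hy, rfl⟩ := Finset.mem_image.1 hx
    exact fun hu => hs.1.2 (Ideal.subset_span hy) (hσ y ▸ hu.map (Ideal.Quotient.mk p))
  have h3 : (maximalIdeal T).map (Ideal.Quotient.mk p) ≤ maximalIdeal (T ⧸ p) := by
    refine le_maximalIdeal fun h => ?_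
    have h4 := congrArg (Ideal.comap (Ideal.Quotient.mk p)) h
    rw [Ideal.comap_map_of_surjective _ Ideal.Quotient.mk_surjective, Ideal.comap_top,
      ← RingHom.ker_eq_comap_bot, Ideal.mk_ker, sup_eq_left.2 (le_maximalIdeal hp)] at h4
    exact (maximalIdeal.isMaximal T).ne_top h4
  have h5 : Ideal.Quotient.mk p a ∈
      (Ideal.span ((s.image σ : Finset T) : Set T)).map (Ideal.Quotient.mk p) := by
    rw [Ideal.map_span, Finset.coe_image, Set.image_image]
    simp only [hσ, Set.image_id']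
    refine hc' (Ideal.pow_right_mono h3 c ?_)
    rw [← Ideal.map_pow]
    exact Ideal.mem_map_of_mem _ ha
  have h6 : a ∈ ((Ideal.span ((s.image σ : Finset T) : Set T)).map (Ideal.Quotient.mk p)).comap
    (Ideal.Quotient.mk p) := h5
  rwa [Ideal.comap_map_of_surjective _ Ideal.Quotient.mk_surjective,
    ← RingHom.ker_eq_comap_bot, Ideal.mk_ker, sup_comm] at h6

end Gr

theorem upp : UPP := by
  intro R _ _ L _ _ _ t hd
  obtain ⟨s, hs, hst, a, ha⟩ := exists_par _ hd
  obtain ⟨n, hn⟩ := cov_max (R := R) (L := L)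
  obtain ⟨z, hz⟩ := IsNoetherian.noetherian (maximalIdeal R)
  have h1 := Cov.pow_le (I := maximalIdeal R) (s := z) (hz ▸ Ideal.subset_span)
    (by rwa [show Ideal.span (z : Set R) = _ from hz]) a
  have h2 : Cov (Ideal.span (s : Set R) • (⊤ : Submodule R L)) (n ^ a ^ z.card) := by
    refine h1.mono ((Submodule.smul_mono_left ha).trans ?_)
    rw [Submodule.sup_smul, ← Submodule.annihilator_top, Submodule.annihilator_smul, bot_sup_eq]
  refine ⟨n ^ a ^ z.card, fun j => ?_⟩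
  obtain ⟨h3, h4⟩ := (h2.pow_le hs j).card
  refine ⟨h3, h4.trans ?_⟩
  rw [pow_mul]
  exact (Nat.pow_le_pow_left Nat.lt_two_pow_self.le _).trans (Nat.pow_le_pow_right (by positivity)
    ((Nat.pow_le_pow_left (Nat.le_succ j) _).trans (Nat.pow_le_pow_right j.succ_pos hst)))

theorem dim : DIM := by
  intro O κ _ _ _ _ r V _ _ _ _ B R _ _ _ ι y hB hA L hfg hL hs
  by_contra hlt
  set t := Fintype.card κ + r with ht
  have e : 1 + Fintype.card κ + r = t + 1 := by omega
  rw [not_le, e, Nat.cast_add, Nat.cast_one, ENat.WithBot.lt_add_one_iff] at hlt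
  have : Module.Finite R L := Module.Finite.iff_fg.2 hfg
  obtain ⟨c', hc'⟩ := upp R L t hlt
  obtain ⟨c, hc⟩ := gro O κ r V B hB L.toAddSubgroup
    (fun h => hL (Submodule.toAddSubgroup_injective h))
    (fun o v hv => hA.c o v ▸ L.smul_mem _ hv) (fun s v hv => hA.y s v ▸ L.smul_mem _ hv) hs
  obtain ⟨a, ha⟩ := hA.cont
  have h1 : ∀ N, ∀ p ∈ maximalIdeal R ^ (a * N), ∀ v : V, p • v ∈ Fl O κ r V N := by
    intro N
    induction N with
    | zero => exact fun p _ v => fl_zero _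
    | succ N ih =>
      intro p hp v
      rw [Nat.mul_succ, pow_add, mul_comm] at hp
      refine Submodule.mul_induction_on hp (fun x hx x' hx' => ?_) fun x x' h h' => ?_
      · rw [mul_smul]
        exact ha x hx N _ (ih x' hx' v)
      · rw [add_smul]
        exact Submodule.add_mem _ h h'
  have h2 : ∀ u, u ^ (t + 1) ≤ c' * (a * (c * (u + 1)) + 1) ^ t := fun u => by
    obtain ⟨f, hf, hi⟩ := hc u
    obtain ⟨h3, h4⟩ := hc' (a * (c * (u + 1)))
    have h5 := Nat.card_le_card_of_injective (fun i => (Submodule.Quotient.mk ⟨f i, hf i⟩ :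
      L ⧸ maximalIdeal R ^ (a * (c * (u + 1))) • (⊤ : Submodule R L))) fun i i' h => hi i i' (by
        have h6 := (Submodule.Quotient.eq _).1 h
        refine Submodule.smul_induction_on (p := fun x : L => (x : V) ∈ Fl O κ r V (c * (u + 1)))
          h6 (fun p hp v _ => h1 _ p hp v) fun x x' h h' => Submodule.add_mem _ h h')
    rw [Nat.card_eq_fintype_card, Fintype.card_fin, e] at h5
    exact (Nat.pow_le_pow_iff_right one_lt_two).1 (h5.trans h4)
  have h7 := h2 (c' * (2 * a * c + 1) ^ t + 1)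
  set u := c' * (2 * a * c + 1) ^ t + 1 with hu
  have h8 : a * (c * (u + 1)) + 1 ≤ (2 * a * c + 1) * u := by
    have : 1 ≤ u := by omega
    nlinarith [Nat.mul_le_mul_left (a * c) this]
  have h9 := h7.trans (Nat.mul_le_mul_left _ (Nat.pow_le_pow_left h8 t))
  rw [mul_pow, ← mul_assoc, pow_succ'] at h9
  have := Nat.le_of_mul_le_mul_right h9 (by positivity)
  omega

end Vale.Agent.P022K.PL
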