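import Vale.Agent.P022K.PL.Defs

/-!
# P022K, block PL: the part killed by a minimal prime
-/

set_option linter.all false

namespace Vale.Agent.P022K.PL

theorem comp : COMP := by
  intro P R V _ _ _ _ _ φ L hL 𝔵 h𝔵 hle
  have hf : Module.Finite R L := Module.Finite.iff_fg.2 hL
  obtain ⟨𝔮, h𝔮, h1⟩ := Ideal.exists_minimalPrimes_le hle
  obtain ⟨𝔭, h𝔭, e⟩ := Ideal.exists_minimalPrimes_comap_eq φ 𝔮 h𝔮
  obtain ⟨h2, v, hv⟩ := isAssociatedPrime_iff.1
    (Module.associatedPrimes.minimalPrimes_annihilator_subset_associatedPrimes R L h𝔭)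
  refine ⟨𝔮, h𝔮.1.1, h𝔮.1.2, h1, v, v.2, fun h0 => h2.ne_top ?_, fun u hu => ?_⟩
  · rw [hv, show v = 0 from Subtype.ext h0]
    simp
  · have : φ u ∈ 𝔭 := by rw [← e] at hu; exact hu
    rw [hv, Submodule.mem_colon_singleton] at this
    exact congrArg Subtype.val ((Submodule.mem_bot R).1 this)

end Vale.Agent.P022K.PL
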