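import Vale.Agent.P022K.PL.Defs
import Vale.Agent.P022D.PA.Lim

/-!
# P022K, block PL: descent to the fibre
-/

set_option linter.all false

noncomputable section

namespace Vale.Agent.P022K.PL

open IsLocalRing Filter MvPowerSeries
open Vale.Agent.P022D
open Vale.Agent.P022D.Core (PS io y1)
open Vale.Agent.P022D.PA (Base Cv)

namespace De

/-- the ideal spanned by finitely many variables -/
theorem mem_span_X {O τ : Type} [CommRing O] (T : Finset τ) (a : MvPowerSeries τ O) :
    a ∈ Ideal.span ((X : τ → MvPowerSeries τ O) '' T) ↔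
      ∀ m : τ →₀ ℕ, (∀ t ∈ T, m t = 0) → coeff m a = 0 := by
  classical
  constructor
  · intro h
    induction h using Submodule.span_induction with
    | mem x hx =>
      obtain ⟨t, ht, rfl⟩ := hx
      exact fun m hm => X_dvd_iff.1 dvd_rfl m (hm t ht)
    | zero => exact fun m _ => map_zero _
    | add x y _ _ hx hy => exact fun m hm => by rw [map_add, hx m hm, hy m hm, add_zero]
    | smul c x _ hx =>
      intro m hm
      rw [smul_eq_mul, coeff_mul]
      refine Finset.sum_eq_zero fun p hp => ?_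
      rw [hx p.2 fun t ht => ?_, mul_zero]
      have := DFunLike.congr_fun (Finset.HasAntidiagonal.mem_antidiagonal.1 hp) t
      rw [Finsupp.add_apply, hm t ht] at this
      omega
  · induction T using Finset.induction_on generalizing a with
    | empty =>
      intro h
      rw [show a = 0 from MvPowerSeries.ext fun m => h m (by simp)]
      exact Ideal.zero_mem _
    | insert t T ht ih =>
      intro h
      let b : MvPowerSeries τ O := fun m => if m t = 0 then coeff m a else 0
      have hb : ∀ m, coeff m b = if m t = 0 then coeff m a else 0 := fun _ => rfl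
      obtain ⟨c, hc⟩ : (X t : MvPowerSeries τ O) ∣ a - b :=
        X_dvd_iff.2 fun m hm => by rw [map_sub, hb, if_pos hm, sub_self]
      rw [show a = X t * c + b by rw [← hc]; ring]
      refine Ideal.add_mem _ (Ideal.mul_mem_right _ _ (Ideal.subset_span ⟨t, by simp, rfl⟩))
        (Ideal.span_mono (Set.image_mono (by simp)) (ih b fun m hm => ?_))
      rw [hb]
      split_ifs with z
      · exact h m fun u hu => (Finset.mem_insert.1 hu).elim (fun e => e ▸ z) (hm u)
      · rfl

theorem nzd_X {O τ : Type} [CommRing O] (T : Finset τ) {s : τ} (hs : s ∉ T)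
    {a : MvPowerSeries τ O} (h : X s * a ∈ Ideal.span ((X : τ → MvPowerSeries τ O) '' T)) :
    a ∈ Ideal.span ((X : τ → MvPowerSeries τ O) '' T) := by
  classical
  rw [mem_span_X] at h ⊢
  intro m hm
  have := h (Finsupp.single s 1 + m) fun t ht => by
    rw [Finsupp.add_apply, hm t ht, Finsupp.single_eq_of_ne (fun e : t = s => hs (e ▸ ht))]
  rwa [X_def, coeff_add_monomial_mul, one_mul] at this

theorem mem_smul_top {A V ι : Type} [CommRing A] [AddCommGroup V] [Module A V] [Fintype ι]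
    (b : Module.Basis ι A V) (I : Ideal A) (v : V) :
    v ∈ I • (⊤ : Submodule A V) ↔ ∀ i, b.repr v i ∈ I := by
  constructor
  · intro h i
    refine Submodule.smul_induction_on h (fun a ha w _ => ?_) fun x y hx hy => ?_
    · rw [map_smul, Finsupp.smul_apply]; exact I.mul_mem_right _ ha
    · rw [map_add, Finsupp.add_apply]; exact I.add_mem hx hy
  · intro h
    rw [← b.sum_repr v]
    exact Submodule.sum_mem _ fun i _ => Submodule.smul_mem_smul (h i) trivial

/-- Nakayama at a prime of the support -/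
theorem nak {R N : Type} [CommRing R] [AddCommGroup N] [Module R N] [Module.Finite R N]
    {𝔭 : Ideal R} (hp : 𝔭.IsPrime) (ha : Module.annihilator R N ≤ 𝔭) {y h : R} (hy : y ∈ 𝔭)
    (e : ∀ v : N, ∃ w, h • v = y • w) : h ∈ 𝔭 := by
  have : (⟨𝔭, hp⟩ : PrimeSpectrum R) ∈
      Module.support R (N ⧸ (Ideal.span {y} • ⊤ : Submodule R N)) := by
    rw [Module.support_quotient, Module.support_eq_zeroLocus]
    exact ⟨ha, (Ideal.span_singleton_le_iff_mem 𝔭).2 hy⟩
  rw [Module.support_eq_zeroLocus] at this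
  refine this (Module.mem_annihilator.2 fun v => ?_)
  obtain ⟨v, rfl⟩ := Submodule.Quotient.mk_surjective _ v
  obtain ⟨w, hw⟩ := e v
  rw [← Submodule.Quotient.mk_smul, Submodule.Quotient.mk_eq_zero, hw]
  exact Submodule.smul_mem_smul (Ideal.mem_span_singleton_self y) trivial

section

variable {O κ : Type} [CommRing O] [IsDomain O] [IsDiscreteValuationRing O] [Fintype κ] {r : ℕ}
  {V : Type} [AddCommGroup V] [Module (PS O (κ ⊕ Fin r)) V] {S : Set (Fin r)}

theorem Iy_map (f : V →+ V) (hf : ∀ (s : Fin r) v, f (y1 O κ s • v) = y1 O κ s • f v) {v : V}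
    (h : v ∈ Iy O κ r V S) : f v ∈ Iy O κ r V S := by
  refine Submodule.smul_induction_on h (fun a ha w _ => ?_) fun x y hx hy => by
    rw [map_add]; exact add_mem hx hy
  induction ha using Submodule.span_induction generalizing w with
  | mem x hx =>
    obtain ⟨t, ht, rfl⟩ := hx
    rw [hf]
    exact Submodule.smul_mem_smul (Ideal.subset_span ⟨t, ht, rfl⟩) trivial
  | zero => rw [zero_smul, map_zero]; exact zero_mem _
  | add x y _ _ hx hy => rw [add_smul, map_add]; exact add_mem (hx w trivial) (hy w trivial)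
  | smul c x _ hx => rw [smul_eq_mul, mul_comm, mul_smul]; exact hx _ trivial

theorem Iy_mono {S' : Set (Fin r)} (h : S ⊆ S') : Iy O κ r V S ≤ Iy O κ r V S' :=
  Submodule.smul_mono_left (Ideal.span_mono (Set.image_mono h))

theorem Iy_empty : Iy O κ r V ∅ = ⊥ := by simp [Iy]

theorem mem_Iy_insert {s : Fin r} {v : V} (h : v ∈ Iy O κ r V (insert s S)) :
    ∃ w, v - y1 O κ s • w ∈ Iy O κ r V S := by
  rw [Iy, Set.image_insert_eq, Ideal.span_insert, Submodule.sup_smul, Submodule.mem_sup] at h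
  obtain ⟨a, ha, b, hb, rfl⟩ := h
  rw [Submodule.ideal_span_singleton_smul, Submodule.mem_smul_pointwise_iff_exists] at ha
  obtain ⟨w, -, rfl⟩ := ha
  exact ⟨w, by rwa [add_sub_cancel_left]⟩

theorem Iy_clo [Module.Finite (PS O (κ ⊕ Fin r)) V] {v : V}
    (h : ∀ j, ∃ l ∈ Iy O κ r V S, v - l ∈ Fl O κ r V j) : v ∈ Iy O κ r V S := by
  rw [← Submodule.Quotient.mk_eq_zero]
  refine IsHausdorff.haus (inferInstance : IsHausdorff (maximalIdeal (PS O (κ ⊕ Fin r)))
    (V ⧸ Iy O κ r V S)) _ fun j => SModEq.zero.2 ?_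
  obtain ⟨l, hl, e⟩ := h j
  have := Submodule.mem_map_of_mem (f := (Iy O κ r V S).mkQ) e
  rw [Fl, Submodule.map_smul'', Submodule.map_top, Submodule.range_mkQ, map_sub,
    Submodule.mkQ_apply, Submodule.mkQ_apply, (Submodule.Quotient.mk_eq_zero _).2 hl,
    sub_zero] at this
  exact this

theorem Iy_nzd [Module.Finite (PS O (κ ⊕ Fin r)) V] [Module.Free (PS O (κ ⊕ Fin r)) V]
    {S : Finset (Fin r)} {s : Fin r} (hs : s ∉ S) (j : ℕ) {v : V}
    (h : y1 O κ s ^ j • v ∈ Iy O κ r V S) : v ∈ Iy O κ r V S := by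
  classical
  induction j generalizing v with
  | zero => simpa using h
  | succ j ih =>
    rw [pow_succ, mul_smul] at h
    have := ih h
    have e : y1 O κ '' (S : Set (Fin r)) = (X : κ ⊕ Fin r → PS O (κ ⊕ Fin r)) ''
        (S.image Sum.inr : Finset (κ ⊕ Fin r)) := by
      rw [Finset.coe_image, Set.image_image]; rfl
    rw [Iy, mem_smul_top (Module.Free.chooseBasis (PS O (κ ⊕ Fin r)) V), e] at this ⊢
    intro i
    refine nzd_X _ (s := Sum.inr s) (by simpa using hs) ?_
    have := this i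
    rwa [map_smul, Finsupp.smul_apply] at this

variable {R : Type} [CommRing R] [Base R] [Module R V] {ι : O →+* R} {y : Fin r → R}

/-- the same submodule over the second ring -/
def IR (h : Act O κ r V ι y) (S : Set (Fin r)) : Submodule R V where
  carrier := Iy O κ r V S
  add_mem' := add_mem
  zero_mem' := zero_mem _
  smul_mem' := fun p _ hv => Iy_map (DistribSMul.toAddMonoidHom V p) (fun s v => by
    show p • _ = _ • p • v
    rw [← h.y, ← h.y, smul_comm]) hv

theorem cont_pow (h : Act O κ r V ι y) : ∃ a : ℕ, ∀ j, ∀ p ∈ maximalIdeal R ^ (a * j),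
    ∀ i v, v ∈ Fl O κ r V i → p • v ∈ Fl O κ r V (i + j) := by
  obtain ⟨a, ha⟩ := h.cont
  refine ⟨a, fun j => ?_⟩
  induction j with
  | zero => exact fun p _ i v hv => h.fil p i v hv
  | succ j ih =>
    intro p hp i v hv
    rw [Nat.mul_succ, pow_add, mul_comm] at hp
    refine Submodule.mul_induction_on hp (fun c hc d hd => ?_) fun c d hc hd => by
      rw [add_smul]; exact add_mem hc hd
    rw [mul_smul]
    exact ha c hc _ _ (ih d hd i v hv)

/-- finitely generated submodules are closed, also modulo some of the variables -/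
theorem clo [Module.Finite (PS O (κ ⊕ Fin r)) V] (h : Act O κ r V ι y) {L : Submodule R V}
    (hL : L.FG) {v : V} (e : ∀ j, ∃ l ∈ L ⊔ IR h S, v - l ∈ Fl O κ r V j) : v ∈ L ⊔ IR h S := by
  obtain ⟨n, g, rfl⟩ := Submodule.fg_iff_exists_fin_generating_family.1 hL
  obtain ⟨a, ha⟩ := cont_pow h
  have : ∀ j, ∃ (c : Fin n → R) (u : V), u ∈ Iy O κ r V S ∧
      v - (∑ k, c k • g k + u) ∈ Fl O κ r V j := fun j => by
    obtain ⟨l, hl, e⟩ := e j
    obtain ⟨x, hx, u, hu, rfl⟩ := Submodule.mem_sup.1 hl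
    obtain ⟨c, rfl⟩ := (Submodule.mem_span_range_iff_exists_fun R).1 hx
    exact ⟨c, u, hu, e⟩
  choose c u hu e using this
  choose z hz using fun k => PA.lim R (Ultrafilter.of atTop) fun j => c j k
  have : v - ∑ k, z k • g k ∈ Iy O κ r V S := Iy_clo fun j => by
    obtain ⟨i, hi, hj⟩ := ((eventually_all.2 fun k => hz k (a * j)).and
      ((eventually_ge_atTop j).filter_mono (Ultrafilter.of_le atTop))).exists
    refine ⟨u i, hu i, ?_⟩
    have e1 : v - ∑ k, z k • g k - u i =
        v - (∑ k, c i k • g k + u i) + ∑ k, (c i k - z k) • g k := by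
      simp only [sub_smul, Finset.sum_sub_distrib]; abel
    rw [e1]
    refine add_mem (Submodule.smul_mono_left (Ideal.pow_le_pow_right hj) (e i))
      (Submodule.sum_mem _ fun k _ => ?_)
    have := ha j _ (hi k) 0 (g k) (by simp [Fl])
    rwa [zero_add] at this
  rw [← add_sub_cancel (∑ k, z k • g k) v]
  exact add_mem (Submodule.mem_sup_left (Submodule.sum_mem _ fun k _ =>
    Submodule.smul_mem _ _ (Submodule.subset_span ⟨k, rfl⟩))) (Submodule.mem_sup_right this)

/-- one more variable -/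
theorem step (acc : ACC) [Module.Finite (PS O (κ ⊕ Fin r)) V] [Module.Free (PS O (κ ⊕ Fin r)) V]
    {B : κ → V →+ V} (hB : Op O κ r B) (h : Act O κ r V ι y) {𝔭 : Ideal R} (hp : 𝔭.IsPrime)
    {S : Finset (Fin r)} {s : Fin r} (hs : s ∉ S) (hy : y s ∈ 𝔭) {L : Submodule R V} (hL : L.FG)
    (st : ∀ i, ∀ v ∈ L, ∃ l ∈ L, B i v - l ∈ Iy O κ r V S)
    (an : ∀ p : R, (∀ v ∈ L, p • v ∈ Iy O κ r V S) → p ∈ 𝔭) :
    ∃ L' : Submodule R V, L'.FG ∧ (∀ i, ∀ v ∈ L', ∃ l ∈ L', B i v - l ∈ Iy O κ r V (insert s S)) ∧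
      ∀ p : R, (∀ v ∈ L', p • v ∈ Iy O κ r V (insert s S)) → p ∈ 𝔭 := by
  classical
  let I := IR h (S : Set (Fin r))
  let T : ℕ → Submodule R V := fun j => (L ⊔ I).comap (y s ^ j • LinearMap.id)
  have hT : ∀ j v, v ∈ T j ↔ y s ^ j • v ∈ L ⊔ I := fun _ _ => Iff.rfl
  have yp : ∀ j (v : V), y s ^ j • v = y1 O κ s ^ j • v := fun j => by
    induction j with
    | zero => simp
    | succ j ih => exact fun v => by rw [pow_succ, pow_succ, mul_smul, mul_smul, h.y, ih]
  have Bp : ∀ i j (v : V), B i (y s ^ j • v) = y s ^ j • B i v := fun i j => by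
    induction j with
    | zero => simp
    | succ j ih => exact fun v => by rw [pow_succ, mul_smul, mul_smul, ih, h.y, h.y, hB.y]
  have sB : ∀ i, ∀ v ∈ L ⊔ I, B i v ∈ L ⊔ I := fun i v hv => by
    obtain ⟨x, hx, u, hu, rfl⟩ := Submodule.mem_sup.1 hv
    obtain ⟨l, hl, e⟩ := st i x hx
    rw [map_add, ← add_sub_cancel l (B i x)]
    exact add_mem (add_mem (Submodule.mem_sup_left hl) (Submodule.mem_sup_right e))
      (Submodule.mem_sup_right (Iy_map (B i) (hB.y i) hu))
  have sT : ∀ j i, ∀ v ∈ T j, B i v ∈ T j := fun j i v hv => by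
    rw [hT, ← Bp]; exact sB i _ hv
  have IT : ∀ j, I ≤ T j := fun j v hv => Submodule.mem_sup_right (I.smul_mem _ hv)
  obtain ⟨c, hc⟩ := acc O κ r V B hB (fun j => (T j).toAddSubgroup)
    (monotone_nat_of_le_succ fun j v hv => by
      show y s ^ (j + 1) • v ∈ L ⊔ I
      rw [pow_succ', mul_smul]
      exact Submodule.smul_mem _ _ hv)
    (fun n o v hv => h.c o v ▸ (T n).smul_mem _ hv) (fun n t v hv => h.y t v ▸ (T n).smul_mem _ hv)
    sT
  have hc' : ∀ v ∈ T (c + 1), v ∈ T c := fun v hv => clo h hL fun j => by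
    obtain ⟨l, hl, e⟩ := hc _ v hv j
    exact ⟨_, hl, by
      show y s ^ c • v - y s ^ c • l ∈ _
      rw [← smul_sub]; exact h.fil _ _ _ e⟩
  obtain ⟨j, hj⟩ : ∃ j, ∀ p : R, (∀ v ∈ T j, p • v ∈ Iy O κ r V (insert s S)) → p ∈ 𝔭 := by
    by_contra! z
    choose p p1 p2 using z
    have key : ∀ n, ∃ q ∉ 𝔭, ∀ v ∈ L ⊔ I, ∃ w ∈ T n, q • v - y s ^ n • w ∈ I := fun n => by
      induction n with
      | zero => exact ⟨1, hp.one_notMem, fun v hv => ⟨v, by simpa [hT] using hv, by simp⟩⟩
      | succ n ih =>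
        obtain ⟨q, q1, q2⟩ := ih
        refine ⟨p n * q, hp.mul_notMem (p2 n) q1, fun v hv => ?_⟩
        obtain ⟨w, w1, w2⟩ := q2 v hv
        obtain ⟨u, hu⟩ := mem_Iy_insert (p1 n w w1)
        rw [← h.y] at hu
        have e : (p n * q) • v - y s ^ (n + 1) • u =
            p n • (q • v - y s ^ n • w) + y s ^ n • (p n • w - y s • u) := by
          rw [pow_succ]; module
        have m : (p n * q) • v - y s ^ (n + 1) • u ∈ I :=
          e ▸ add_mem (I.smul_mem _ w2) (I.smul_mem _ hu)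
        refine ⟨u, ?_, m⟩
        rw [hT, ← sub_sub_cancel ((p n * q) • v) (y s ^ (n + 1) • u)]
        exact sub_mem (Submodule.smul_mem _ _ hv) (Submodule.mem_sup_right m)
    obtain ⟨q, q1, q2⟩ := key (c + 1)
    haveI : Module.Finite R (L.map I.mkQ) := Module.Finite.iff_fg.2 (hL.map _)
    refine q1 (nak (N := L.map I.mkQ) hp (fun a ha => an a fun v hv => ?_) hy ?_)
    · have := congrArg Subtype.val
        (Module.mem_annihilator.1 ha ⟨_, Submodule.mem_map_of_mem hv⟩)
      exact (Submodule.Quotient.mk_eq_zero I).1 this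
    · rintro ⟨_, v, hv, rfl⟩
      obtain ⟨w, w1, w2⟩ := q2 v (Submodule.mem_sup_left hv)
      obtain ⟨l, hl, u, hu, e⟩ := Submodule.mem_sup.1 ((hT c w).1 (hc' w w1))
      refine ⟨⟨_, l, hl, rfl⟩, Subtype.ext ((Submodule.Quotient.eq I).2 ?_)⟩
      rw [show q • v - y s • l = q • v - y s ^ (c + 1) • w + y s • u by
        rw [pow_succ', mul_smul, ← e]; module]
      exact add_mem w2 (I.smul_mem _ hu)
  obtain ⟨L', l1, l2, l3⟩ : ∃ L' : Submodule R V, L'.FG ∧ L' ≤ T j ∧ T j ≤ L' ⊔ I := by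
    have f : ((T j).map (I.mkQ ∘ₗ (y s ^ j • LinearMap.id : V →ₗ[R] V))).FG := by
      refine Submodule.FG.of_le (hL.map I.mkQ) ?_
      rintro _ ⟨v, hv, rfl⟩
      obtain ⟨l, hl, u, hu, e⟩ := Submodule.mem_sup.1 ((hT j v).1 hv)
      refine ⟨l, hl, (Submodule.Quotient.eq I).2 ?_⟩
      show l - y s ^ j • v ∈ I
      rw [← e, sub_add_cancel_left]
      exact neg_mem hu
    obtain ⟨n, g, hg⟩ := Submodule.fg_iff_exists_fin_generating_family.1 f
    choose t t1 t2 using fun k => (hg.le (Submodule.subset_span ⟨k, rfl⟩) : g k ∈ _)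
    refine ⟨Submodule.span R (Set.range t), Submodule.fg_span (Set.finite_range t),
      Submodule.span_le.2 (Set.range_subset_iff.2 t1), fun v hv => ?_⟩
    obtain ⟨a, ha⟩ := (Submodule.mem_span_range_iff_exists_fun R).1
      (hg.ge (Submodule.mem_map_of_mem hv))
    have : v - ∑ k, a k • t k ∈ I := by
      refine Iy_nzd hs j ?_
      rw [← yp]
      refine (Submodule.Quotient.mk_eq_zero I).1 ?_
      show (I.mkQ ∘ₗ (y s ^ j • LinearMap.id : V →ₗ[R] V)) (v - ∑ k, a k • t k) = 0
      rw [map_sub, ← ha, map_sum]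
      simp only [map_smul, t2, sub_self]
    rw [← add_sub_cancel (∑ k, a k • t k) v]
    exact add_mem (Submodule.mem_sup_left (Submodule.sum_mem _ fun k _ =>
      Submodule.smul_mem _ _ (Submodule.subset_span ⟨k, rfl⟩))) (Submodule.mem_sup_right this)
  have mo : Iy O κ r V S ≤ Iy O κ r V (insert s S) := Iy_mono (Set.subset_insert _ _)
  refine ⟨L', l1, fun i v hv => ?_, fun p hp' => hj p fun v hv => ?_⟩
  · obtain ⟨l, hl, u, hu, e⟩ := Submodule.mem_sup.1 (l3 (sT j i v (l2 hv)))
    exact ⟨l, hl, by rw [← e, add_sub_cancel_left]; exact mo hu⟩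
  · obtain ⟨l, hl, u, hu, rfl⟩ := Submodule.mem_sup.1 (l3 hv)
    rw [smul_add]
    exact add_mem (hp' l hl) (mo (I.smul_mem p hu))

end

end De

/-- **row DESC** -/
theorem desc_of (acc : ACC) : DESC := by
  intro O κ _ _ _ _ r V _ _ _ _ B R _ _ _ ι y hB h L hL st 𝔭 hp an hy
  classical
  have : ∀ S : Finset (Fin r), ∃ L0 : Submodule R V, L0.FG ∧
      (∀ i, ∀ v ∈ L0, ∃ l ∈ L0, B i v - l ∈ Iy O κ r V S) ∧
      ∀ p : R, (∀ v ∈ L0, p • v ∈ Iy O κ r V S) → p ∈ 𝔭 := fun S => by
    induction S using Finset.induction_on with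
    | empty =>
      refine ⟨L, hL, fun i v hv => ⟨_, st i v hv, by simp⟩, fun p e => an ?_⟩
      rw [Finset.coe_empty, De.Iy_empty] at e
      exact Submodule.mem_annihilator.2 e
    | insert s S hs ih =>
      obtain ⟨L0, a, b, c⟩ := ih
      rw [Finset.coe_insert]
      exact De.step acc hB h hp hs (hy s) a b c
  simpa using this Finset.univ

end Vale.Agent.P022K.PL
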