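import Vale.Agent.P022K.PL.Defs
import Vale.Agent.P022D.PA.Lim

/-!
# P022K, block PL: the limit of the modules of finite level
-/

set_option linter.all false

noncomputable section

namespace Vale.Agent.P022K.PL

open IsLocalRing Filter MvPowerSeries
open Vale.Agent.P022D.Core (PS io y1)
open Vale.Agent.P022D.PA (Base Cv)

namespace Lt

section
variable {O κ : Type} [CommRing O] [IsLocalRing O] {r : ℕ} {V : Type} [AddCommGroup V]
  [Module (PS O (κ ⊕ Fin r)) V]

theorem fl_le {i j : ℕ} (h : i ≤ j) {v : V} (hv : v ∈ Fl O κ r V j) : v ∈ Fl O κ r V i :=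
  Submodule.smul_mono_left (Ideal.pow_le_pow_right h) hv

theorem fl_zero (v : V) : v ∈ Fl O κ r V 0 := by
  simp [Fl]

theorem op_fl {B : κ → V →+ V} (h : Op O κ r B) (i : κ) {j : ℕ} {v : V}
    (hv : v ∈ Fl O κ r V j) : B i v ∈ Fl O κ r V j := by
  have := Submodule.add_mem _ (fl_le (Nat.le_add_right j 2) (h.ap i j v hv))
    (Submodule.smul_mem _ (X (Sum.inl i) : PS O (κ ⊕ Fin r)) hv)
  rwa [sub_add_cancel] at this

/-- submodules are closed -/
theorem clo [IsNoetherianRing O] [Finite κ] [Module.Finite (PS O (κ ⊕ Fin r)) V]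
    (I : Submodule (PS O (κ ⊕ Fin r)) V) (v : V)
    (h : ∀ j, ∃ t ∈ Fl O κ r V j, v - t ∈ I) : v ∈ I := by
  have h1 := Ideal.iInf_pow_smul_eq_bot_of_isLocalRing (M := V ⧸ I)
    (maximalIdeal (PS O (κ ⊕ Fin r))) (maximalIdeal.isMaximal _).ne_top
  rw [← Submodule.Quotient.mk_eq_zero, ← Submodule.mem_bot (PS O (κ ⊕ Fin r)), ← h1,
    Submodule.mem_iInf]
  intro j
  obtain ⟨t, ht, e⟩ := h j
  rw [(Submodule.Quotient.eq I).2 e]
  have : I.mkQ t ∈ (Fl O κ r V j).map I.mkQ := Submodule.mem_map_of_mem ht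
  rw [Fl, Submodule.map_smul''] at this
  exact Submodule.smul_mono le_rfl le_top this

theorem sep [IsNoetherianRing O] [Finite κ] [Module.Finite (PS O (κ ⊕ Fin r)) V] {v w : V}
    (h : ∀ j, v - w ∈ Fl O κ r V j) : v = w := by
  have := clo (O := O) (κ := κ) (r := r) ⊥ (v - w) fun j => ⟨v - w, h j, by simp⟩
  exact sub_eq_zero.1 this

variable {R : Type} [CommRing R] [IsLocalRing R] {B : κ → V →+ V} {ι : O →+* R} {y : Fin r → R}
  {M : ℕ → Type} [∀ n, AddCommGroup (M n)] [∀ n, Module R (M n)] {π : ∀ n, V →+ M n}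
  {N : ∀ n, Submodule R (M n)} {M0 : Type} [AddCommGroup M0] [Module R M0] {π0 : V →+ M0}
  {N0 : Set M0}

theorem near (h : Lev O r B ι y M π N M0 π0 N0) {n j : ℕ} (hn : j ≤ n) {v w : V}
    (e : π n v = π n w) : v - w ∈ Fl O κ r V j :=
  fl_le hn (h.ker n _ (by rw [map_sub, e, sub_self]))

/-- uniform continuity of the actions -/
theorem cont (h : Lev O r B ι y M π N M0 π0 N0) : ∃ a : ℕ, ∀ n j, ∀ p ∈ maximalIdeal R ^ (a * j),
    ∀ v, ∃ v' ∈ Fl O κ r V j, p • π n v = π n v' := by
  obtain ⟨a, ha⟩ := h.cont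
  refine ⟨a, fun n j => ?_⟩
  induction j with
  | zero =>
    intro p _ v
    obtain ⟨v', e⟩ := h.surj n (p • π n v)
    exact ⟨v', fl_zero _, e.symm⟩
  | succ j ih =>
    intro p hp v
    rw [Nat.mul_succ, pow_add, mul_comm] at hp
    refine Submodule.mul_induction_on hp (fun s hs t ht => ?_) fun s t hs ht => ?_
    · obtain ⟨v1, h1, e1⟩ := ih t ht v
      obtain ⟨v2, h2, e2⟩ := ha n s hs j v1 h1
      exact ⟨v2, h2, by rw [mul_smul, e1, e2]⟩
    · obtain ⟨v1, h1, e1⟩ := hs
      obtain ⟨v2, h2, e2⟩ := ht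
      exact ⟨v1 + v2, Submodule.add_mem _ h1 h2, by rw [add_smul, e1, e2, map_add]⟩

end

end Lt

open Lt

theorem limit_of (hL : LIMOP) : LIMIT := by
  intro O κ _ _ _ _ _ r V _ _ _ B R _ hR ι y M _ _ π N M0 _ _ π0 N0 hB h U hU
  classical
  obtain ⟨hex, -⟩ := hL O κ r V U hU
  have ev : ∀ j, ∀ᶠ n in (U : Filter ℕ), j ≤ n := fun j => hU (eventually_ge_atTop j)
  have lim : ∀ x : ℕ → V, ∃ v, ∀ j, ∀ᶠ n in (U : Filter ℕ), v - x n ∈ Fl O κ r V j := fun x => by
    obtain ⟨f, hf⟩ := hex fun n _ => x n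
    exact ⟨f 0, hf 0⟩
  choose lf hlf using fun n (p : R) v => h.surj n (p • π n v)
  choose sm hsm using fun (p : R) v => lim fun n => lf n p v
  have S : ∀ (p : R) v j, ∀ᶠ n in (U : Filter ℕ), ∀ v', p • π n v = π n v' →
      sm p v - v' ∈ Fl O κ r V j := fun p v j => ((hsm p v j).and (ev j)).mono fun n hn v' e => by
    have := Submodule.add_mem _ hn.1 (near h hn.2 ((hlf n p v).trans e))
    rwa [sub_add_sub_cancel] at this
  have E : ∀ (p : R) v w, (∀ n, p • π n v = π n w) → sm p v = w := fun p v w e =>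
    sep fun j => by
      obtain ⟨n, hn⟩ := (S p v j).exists
      exact hn w (e n)
  have hadd : ∀ (p q s : R) (u v w : V), (∀ n, s • π n w = p • π n u + q • π n v) →
      sm s w = sm p u + sm q v := fun p q s u v w e => sep fun j => by
    obtain ⟨n, h1, h2, h3⟩ := ((S s w j).and ((hsm p u j).and (hsm q v j))).exists
    have h4 := h1 (lf n p u + lf n q v) (by rw [e, map_add, hlf, hlf])
    have := Submodule.sub_mem _ h4 (Submodule.add_mem _ h2 h3)
    convert this using 1
    abel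
  have hmul : ∀ (p q : R) v, sm (p * q) v = sm p (sm q v) := fun p q v => sep fun j => by
    obtain ⟨n, h1, h2, h3⟩ := ((S (p * q) v j).and ((hsm q v j).and (hsm p (sm q v) j))).exists
    obtain ⟨u, hu, e⟩ := h.fil n p j _ h2
    have h4 := h1 (lf n p (sm q v) - u) (by
      rw [map_sub, ← e, hlf, map_sub, hlf, smul_sub, sub_sub_cancel, mul_smul])
    have := Submodule.sub_mem _ (Submodule.sub_mem _ h4 hu) h3
    convert this using 1
    abel
  letI : SMul R V := ⟨sm⟩
  have sd : ∀ (p : R) (v : V), p • v = sm p v := fun _ _ => rfl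
  letI md : Module R V := Module.ofMinimalAxioms
    (fun p u v => hadd p p p u v (u + v) fun n => by rw [map_add, smul_add])
    (fun p q v => hadd p q (p + q) v v v fun n => add_smul _ _ _)
    (fun p q v => hmul p q v) (fun v => E 1 v v fun n => one_smul _ _)
  obtain ⟨a, ha⟩ := cont h
  have fl : ∀ (p : R) v j, (∀ n, ∃ v' ∈ Fl O κ r V j, p • π n v = π n v') →
      p • v ∈ Fl O κ r V j := fun p v j e => by
    obtain ⟨n, hn⟩ := (S p v j).exists
    obtain ⟨v', h1, h2⟩ := e n
    have := Submodule.add_mem _ (hn v' h2) h1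
    rwa [sub_add_cancel] at this
  have k0 : ∀ v w : V, (∀ j, ∃ t ∈ Fl O κ r V j, π0 v = π0 (w + t)) → π0 v = π0 w := by
    intro v w e
    rw [← sub_eq_zero, ← map_sub, h.ker0]
    refine clo _ _ fun j => ?_
    obtain ⟨t, ht, e⟩ := e j
    exact ⟨t, ht, (h.ker0 _).1 (by rw [sub_sub, map_sub, e, sub_self])⟩
  let L : Submodule R V :=
    { carrier := {v | ∀ j, ∀ᶠ n in (U : Filter ℕ), ∃ v', π n v' ∈ N n ∧ v - v' ∈ Fl O κ r V j}
      zero_mem' := fun j => Eventually.of_forall fun n => ⟨0, by simp, by simp⟩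
      add_mem' := fun {u v} hu hv j => ((hu j).and (hv j)).mono fun n hn => by
        obtain ⟨⟨u', h1, h2⟩, v', h3, h4⟩ := hn
        refine ⟨u' + v', by rw [map_add]; exact Submodule.add_mem _ h1 h3, ?_⟩
        rw [add_sub_add_comm]
        exact Submodule.add_mem _ h2 h4
      smul_mem' := fun p v hv j => ((hv j).and (hsm p v j)).mono fun n hn => by
        obtain ⟨⟨v', h1, h2⟩, h3⟩ := hn
        obtain ⟨u, hu, e⟩ := h.fil n p j _ h2
        refine ⟨lf n p v - u, ?_, ?_⟩
        · rw [map_sub, ← e, hlf, map_sub, smul_sub, sub_sub_cancel]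
          exact Submodule.smul_mem _ p h1
        · have := Submodule.add_mem _ h3 hu
          convert this using 1
          rw [sd]
          abel }
  refine ⟨md, ⟨fun o v => E _ _ _ fun n => h.c n o v, fun s v => E _ _ _ fun n => h.y n s v,
    fun p j v hv => fl p v j fun n => h.fil n p j v hv, ?_⟩, fun p v => ?_,
    fun p v j => (hsm p v j).mono fun n hn => ⟨_, (hlf n p v).symm, hn⟩, fun p hp i v => ?_,
    fun z c hz hk v => ?_, L, ?_, fun i v hv j => ?_, fun w hw => ?_, fun v => Iff.rfl⟩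
  · obtain ⟨b, hb⟩ := h.cont
    exact ⟨b, fun p hp j v hv => fl p v _ fun n => hb n p hp j v hv⟩
  · obtain ⟨u0, -, e0⟩ := h.fix 0 p v _ (hlf 0 p v).symm
    rw [e0]
    refine (k0 _ _ fun j => ?_).symm
    obtain ⟨n, h1, h2⟩ := ((hsm p v j).and (ev j)).exists
    obtain ⟨u, hu, e⟩ := h.fix n p v _ (hlf n p v).symm
    refine ⟨u - (sm p v - lf n p v), Submodule.sub_mem _ (fl_le h2 hu) h1, ?_⟩
    rw [← e0, e, sd]
    congr 1
    abel
  · refine sep (O := O) (κ := κ) (r := r) fun j => ?_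
    obtain ⟨n, h1, h2⟩ := ((S p (B i v) j).and (hsm p v j)).exists
    have h3 := h1 _ (hp n i v _ (hlf n p v).symm)
    have := Submodule.sub_mem _ h3 (op_fl hB i h2)
    rwa [map_sub, sub_sub_sub_cancel_right] at this
  · refine sep (O := O) (κ := κ) (r := r) fun j => ?_
    obtain ⟨n, h1, h2⟩ := ((S c v j).and (hz (a * j))).exists
    obtain ⟨v', h3, e⟩ := ha n j _ h2 v
    rw [sub_smul, hk, zero_sub] at e
    have h4 := h1 (-v') (by rw [map_neg, ← e, neg_neg])
    have := Submodule.sub_mem _ h4 h3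
    rwa [sub_neg_eq_add, add_sub_cancel_right, ← sub_zero (sm c v)] at this
  · obtain ⟨b, hb⟩ := h.gen
    choose g hg using hb
    choose gl hgl using fun n k => h.surj n (g n k)
    choose G hG using fun k => lim fun n => gl n k
    refine (Submodule.fg_iff_exists_fin_generating_family).2 ⟨b, G, le_antisymm ?_ fun v hv => ?_⟩
    · rw [Submodule.span_le]
      rintro _ ⟨k, rfl⟩ j
      refine (hG k j).mono fun n hn => ⟨gl n k, ?_, hn⟩
      rw [hgl, hg]
      exact Submodule.subset_span ⟨k, rfl⟩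
    · let q : ℕ → ℕ → Prop := fun n j => ∃ v', π n v' ∈ N n ∧ v - v' ∈ Fl O κ r V j
      have h0 : ∀ n, q n (Nat.findGreatest (q n) n) := fun n =>
        Nat.findGreatest_spec (P := q n) (Nat.zero_le n) ⟨0, by simp, fl_zero _⟩
      choose x hx hx' using h0
      have hc : ∀ n, ∃ c : Fin b → R, ∑ k, c k • g n k = π n (x n) := fun n =>
        (Submodule.mem_span_range_iff_exists_fun R).1 (hg n ▸ hx n)
      choose c hc using hc
      choose d hd using fun k => P022D.PA.lim R U fun n => c n k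
      suffices e : v = ∑ k, d k • G k from e ▸ Submodule.sum_mem _ fun k _ =>
        Submodule.smul_mem _ _ (Submodule.subset_span ⟨k, rfl⟩)
      refine sep (O := O) (κ := κ) (r := r) fun j => ?_
      obtain ⟨n, h1, h2, h3⟩ := ((hv j).and ((ev j).and (eventually_all.2 fun k =>
        (hd k (a * j)).and ((hG k j).and (hsm (d k) (G k) j))))).exists
      have h4 : v - x n ∈ Fl O κ r V j := fl_le (Nat.le_findGreatest h2 h1) (hx' n)
      choose u hu eu using fun k => h.fil n (d k) j _ (h3 k).2.1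
      choose u' hu' eu' using fun k => ha n j _ (h3 k).1 (gl n k)
      have h5 : x n - ∑ k, (lf n (d k) (G k) - u k + u' k) ∈ Fl O κ r V j := by
        refine near h h2 ?_
        rw [← hc, map_sum]
        refine Finset.sum_congr rfl fun k _ => ?_
        rw [map_add, map_sub, ← eu, ← eu', hlf, map_sub, hgl, smul_sub, sub_smul]
        abel
      have h6 : ∑ k, (d k • G k - lf n (d k) (G k) + u k - u' k) ∈ Fl O κ r V j :=
        Submodule.sum_mem _ fun k _ =>
          Submodule.sub_mem _ (Submodule.add_mem _ (h3 k).2.2 (hu k)) (hu' k)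
      have := Submodule.sub_mem _ (Submodule.add_mem _ h4 h5) h6
      convert this using 1
      simp only [Finset.sum_add_distrib, Finset.sum_sub_distrib]
      abel
  · refine (hv j).mono fun n hn => ?_
    obtain ⟨v', h1, h2⟩ := hn
    exact ⟨B i v', h.stab n i v' h1, by rw [← map_sub]; exact op_fl hB i h2⟩
  · choose x hx hx' using fun n => h.onto n w hw
    obtain ⟨v, hv⟩ := lim x
    refine ⟨v, fun j => (hv j).mono fun n hn => ⟨x n, hx n, hn⟩, ?_⟩
    rw [← hx' 0]
    refine (k0 _ _ fun j => ?_).symm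
    obtain ⟨n, hn⟩ := (hv j).exists
    exact ⟨-(v - x n), Submodule.neg_mem _ hn, by rw [hx', neg_sub, add_sub_cancel, hx']⟩

end Vale.Agent.P022K.PL
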