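import Vale.Agent.P022K.PL.Defs
import Vale.Agent.P022K.Pat.Cov
import Vale.Agent.P022D.PA.Etl

/-!
# P022K, block PL: lying over in the cover by the roots of the quadratic polynomials
-/

set_option linter.all false

noncomputable section

namespace Vale.Agent.P022K.PL

open IsLocalRing MvPowerSeries
open Vale.Agent.P022D
open Vale.Agent.P022D.Core (PS io y1)

namespace Lo

variable {A B : Type} [CommRing A] [CommRing B] [Algebra A B]

theorem dim_comap (𝔞 : Ideal B) [Algebra.IsIntegral A (B ⧸ 𝔞)] :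
    ringKrullDim (B ⧸ 𝔞) = ringKrullDim (A ⧸ 𝔞.comap (algebraMap A B)) := by
  haveI : IsScalarTower A (A ⧸ 𝔞.comap (algebraMap A B)) (B ⧸ 𝔞) :=
    IsScalarTower.of_algebraMap_eq fun _ => rfl
  haveI : Algebra.IsIntegral (A ⧸ 𝔞.comap (algebraMap A B)) (B ⧸ 𝔞) :=
    Algebra.IsIntegral.tower_top A
  exact PA.EtlP.dim_eq Ideal.quotientMap_injective

theorem eq_of_dim {I J : Ideal A} (hJ : J.IsPrime) (h : J ≤ I) {D : ℕ}
    (h1 : ringKrullDim (A ⧸ J) ≤ D) (h2 : (D : WithBot ℕ∞) ≤ ringKrullDim (A ⧸ I)) : I = J := by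
  refine le_antisymm (fun u hu => by_contra fun hn => ?_) h
  have := ringKrullDim_succ_le_of_surjective (Ideal.Quotient.factor h)
    (Ideal.Quotient.factor_surjective h) (r := Ideal.Quotient.mk J u)
    (mem_nonZeroDivisors_of_ne_zero fun z => hn (Ideal.Quotient.eq_zero_iff_mem.1 z))
    (Ideal.Quotient.eq_zero_iff_mem.2 hu)
  have e : (D : WithBot ℕ∞) + 1 ≤ D := (add_le_add_left h2 1).trans (this.trans h1)
  norm_cast at e
  omega

theorem ovr (𝔞 : Ideal B) [Algebra.IsIntegral A (B ⧸ 𝔞)] (𝔮 : Ideal A) [𝔮.IsPrime]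
    (h : 𝔞.comap (algebraMap A B) ≤ 𝔮) :
    ∃ 𝔭 : Ideal B, 𝔭.IsPrime ∧ 𝔞 ≤ 𝔭 ∧ 𝔭.comap (algebraMap A B) = 𝔮 := by
  obtain ⟨Q, -, hQ, e⟩ := Ideal.exists_ideal_over_prime_of_isIntegral 𝔮 (⊥ : Ideal (B ⧸ 𝔞))
    fun x hx => h ((Ideal.Quotient.eq_zero_iff_mem (I := 𝔞) (a := algebraMap A B x)).1 hx)
  exact ⟨Q.comap (Ideal.Quotient.mk 𝔞), inferInstance, fun x hx => by
    rw [Ideal.mem_comap, Ideal.Quotient.eq_zero_iff_mem.2 hx]; exact Q.zero_mem, e⟩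

end Lo

/-- **row LO** -/
theorem lo : LO := by
  intro O σ _ _ _ hO _ r D a b 𝔞 J 𝔮 hJ hq hJq hab hrel hio h1 h2
  letI : Algebra (PS O σ) (PS O (σ ⊕ Fin r)) := (io O σ r).toAlgebra
  haveI : Pat.Cf O := ⟨hO.cpl, hO.fin⟩
  have c := Pat.cov O σ r a b hab
  have le : Ideal.span (Set.range fun i =>
      y1 O σ i ^ 2 - io O σ r (a i) * y1 O σ i + io O σ r (b i)) ≤ 𝔞 :=
    Ideal.span_le.2 (Set.range_subset_iff.2 hrel)
  haveI := c.fin
  haveI : Module.Finite (PS O σ) (PS O (σ ⊕ Fin r) ⧸ 𝔞) :=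
    Module.Finite.of_surjective (Ideal.Quotient.factorₐ (PS O σ) le).toLinearMap
      (Ideal.Quotient.factor_surjective le)
  have e : 𝔞.comap (io O σ r) = J :=
    Lo.eq_of_dim hJ hio h1 (h2.trans (Lo.dim_comap (A := PS O σ) 𝔞).le)
  obtain ⟨𝔭, p1, p2, p3⟩ := Lo.ovr (A := PS O σ) 𝔞 𝔮 (e.le.trans hJq)
  refine ⟨e, 𝔭, p1, p2, p3, fun s ha hb => p1.mem_of_pow_mem 2 ?_⟩
  have ha' : io O σ r (a s) ∈ 𝔭 := (p3.ge ha :)
  have hb' : io O σ r (b s) ∈ 𝔭 := (p3.ge hb :)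
  have := 𝔭.sub_mem (𝔭.add_mem (p2 (hrel s)) (𝔭.mul_mem_right (y1 O σ s) ha')) hb'
  convert this using 1
  ring

end Vale.Agent.P022K.PL
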