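import Vale.Agent.P022K.PL.Pati
import Vale.Agent.P022K.PL.Acc
import Vale.Agent.P022K.PL.Desc
import Vale.Agent.P022K.PL.Limit
import Vale.Agent.P022K.PL.Comp
import Vale.Agent.P022K.PL.Lo

/-!
# P022K, block PL: the patching theorems without hypotheses
-/

namespace Vale.Agent.P022K.PL

theorem desc : DESC := desc_of acc

theorem limit : LIMIT := limit_of limop

theorem pati : PATI := pati_of dim desc lo comp

theorem pat : PAT := pat_of limit pati

end Vale.Agent.P022K.PL
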