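import Vale.Agent.P022K.PL.Limop

/-!
# P022K, block PL: the assemblies PATI and PAT
-/

set_option linter.all false

noncomputable section

namespace Vale.Agent.P022K.PL

open IsLocalRing Filter MvPowerSeries
open Vale.Agent.P022D.Core (PS io y1)
open Vale.Agent.P022D.PA (Base Cv)

/-- the part of `L` killed by the image of an ideal -/
def kil {P R V : Type} [CommRing P] [CommRing R] [AddCommGroup V] [Module R V] (φ : P →+* R)
    (𝔮 : Ideal P) (L : Submodule R V) : Submodule R V where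
  carrier := {w | w ∈ L ∧ ∀ u ∈ 𝔮, φ u • w = 0}
  zero_mem' := ⟨L.zero_mem, fun _ _ => smul_zero _⟩
  add_mem' := fun {x y} hx hy => ⟨L.add_mem hx.1 hy.1, fun u hu => by
    rw [smul_add, hx.2 u hu, hy.2 u hu, add_zero]⟩
  smul_mem' := fun c x hx => ⟨L.smul_mem c hx.1, fun u hu => by
    rw [smul_comm, hx.2 u hu, smul_zero]⟩

theorem pati_of (hD : DIM) (hE : DESC) (hL : LO) (hC : COMP) : PATI := by
  intro O κ σ _ _ _ _ _ _ r V _ _ _ _ B _ a b P _ φ I₀ J₀ 𝔵 h L hB hA hab hq hc hI hfg hst h𝔵 hs hh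
    hJ hp hd
  have _ := base_ps O (σ ⊕ Fin r)
  obtain ⟨𝔮₀, hq0, h1, h2, v, hv, hv0, hk⟩ := hC P (PS O (σ ⊕ Fin r)) V ((io O σ r).comp φ) L hfg
    𝔵 h𝔵 fun u hu => hs u fun w hw => Submodule.mem_annihilator.1 hu w hw
  have h3 : J₀ ≤ 𝔮₀ := fun u hu =>
    (hq0.mem_or_mem (h1 (Ideal.mem_comap.2 (Submodule.mem_annihilator.2 fun w _ =>
      hI _ (hJ u hu) w)))).resolve_left fun h' => hh (h2 h')
  set L' := kil ((io O σ r).comp φ) 𝔮₀ L with hL'
  have h4 : L' ≤ L := fun w hw => hw.1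
  have h5 : L'.FG := by
    have := isNoetherian_of_fg_of_noetherian L hfg
    exact (isNoetherian_submodule.1 this) L' h4
  have h6 : Stab B (L' : Set V) := fun i w hw => ⟨hst i w hw.1, fun u hu => by
    have e := hw.2 u hu
    rw [RingHom.comp_apply] at e ⊢
    rw [hc, e, map_zero]⟩
  have h7 : L' ≠ ⊥ := fun e => hv0 (by
    have : v ∈ L' := ⟨hv, hk⟩
    rwa [e, Submodule.mem_bot] at this)
  have h8 := hD O κ r V B (PS O (σ ⊕ Fin r)) C (y1 O σ) hB hA L' h5 h7 h6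
  have h9 : ∀ u ∈ J₀.map φ, io O σ r u ∈ L'.annihilator := by
    intro u hu
    have : J₀.map φ ≤ L'.annihilator.comap (io O σ r) := Ideal.map_le_iff_le_comap.2 fun x hx =>
      Ideal.mem_comap.2 (Ideal.mem_comap.2 (Submodule.mem_annihilator.2 fun w hw =>
        hw.2 x (h3 hx)))
    exact this hu
  have h10 := fun (𝔮 : Ideal (PS O σ)) (h𝔮 : 𝔮.IsPrime) (hle : J₀.map φ ≤ 𝔮) =>
    hL O σ r (1 + Fintype.card κ + r) a b L'.annihilator (J₀.map φ) 𝔮 hp h𝔮 hle hab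
      (fun s => Submodule.mem_annihilator.2 fun w _ => hq s w) h9 hd h8
  refine ⟨fun u hu => ?_, fun 𝔮 h𝔮 hle => ?_⟩
  · rw [← (h10 _ hp le_rfl).1]
    exact Ideal.mem_comap.2 (Submodule.mem_annihilator.2 fun w hw => hu w (h4 hw))
  · obtain ⟨-, 𝔭, p1, p2, p3, p4⟩ := h10 𝔮 h𝔮 hle
    refine ⟨⟨𝔭, p1, (Submodule.annihilator_mono h4).trans p2, p3⟩, fun hm => ?_⟩
    obtain ⟨L0, e1, e2, e3⟩ := hE O κ r V B (PS O (σ ⊕ Fin r)) C (y1 O σ) hB hA L' h5 h6 𝔭 p1 p2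
      fun s => p4 s (hm s).1 (hm s).2
    exact ⟨L0, e1, e2, fun u hu => p3 ▸ Ideal.mem_comap.2 (e3 _ hu)⟩

section
variable {O κ : Type} [CommRing O] [IsLocalRing O] {r : ℕ}

theorem io_pow {j : ℕ} {u : PS O κ} (hu : u ∈ maximalIdeal (PS O κ) ^ j) :
    io O κ r u ∈ maximalIdeal (PS O (κ ⊕ Fin r)) ^ j := by
  have h1 : (maximalIdeal (PS O κ)).map (io O κ r) ≤ maximalIdeal (PS O (κ ⊕ Fin r)) := by
    refine Ideal.map_le_iff_le_comap.2 fun x hx => ?_
    rw [Ideal.mem_comap, mem_maximalIdeal, mem_nonunits_iff, isUnit_iff_constantCoeff]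
    rw [mem_maximalIdeal, mem_nonunits_iff, isUnit_iff_constantCoeff] at hx
    have : constantCoeff (io O κ r x) = constantCoeff x := constantCoeff_rename _ _
    rwa [this]
  have h2 := Ideal.mem_map_of_mem (io O κ r) hu
  rw [Ideal.map_pow] at h2
  exact Ideal.pow_right_mono h1 j h2

variable {V : Type} [AddCommGroup V] [Module (PS O (κ ⊕ Fin r)) V]

theorem Op.iy {B : κ → V →+ V} (hB : Op O κ r B) (S : Set (Fin r)) (i : κ) {v : V}
    (hv : v ∈ Iy O κ r V S) : B i v ∈ Iy O κ r V S := by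
  refine Submodule.smul_induction_on hv (fun c hc w hw => ?_) fun x y hx hy => ?_
  · clear hw
    induction hc using Submodule.span_induction generalizing w with
    | mem x hx =>
      obtain ⟨s, hs, rfl⟩ := hx
      rw [hB.y]
      exact Submodule.smul_mem_smul (Ideal.subset_span ⟨s, hs, rfl⟩) Submodule.mem_top
    | zero => rw [zero_smul, map_zero]; exact Submodule.zero_mem _
    | add x y _ _ hx hy => rw [add_smul, map_add]; exact Submodule.add_mem _ (hx w) (hy w)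
    | smul c x _ hx => rw [smul_eq_mul, mul_comm, mul_smul]; exact hx _
  · rw [map_add]
    exact Submodule.add_mem _ hx hy

end

theorem pat_of (hL : LIMIT) (hP : PATI) : PAT := by
  intro O κ σ _ _ _ _ _ _ r V _ _ _ _ B M _ _ π N M0 _ _ π0 N0 a b P _ φ I₀ J₀ 𝔵 h 𝔮 hB hl hq hc hI
    h𝔵 hs hh hJ hp hd h𝔮 hle hab
  have _ := base_ps O (σ ⊕ Fin r)
  have _ := base_ps O σ
  obtain ⟨_, hA, h0, -, hcm, hz, L, hfg, hst, hon, -⟩ := hL O κ r V B (PS O (σ ⊕ Fin r)) C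
    (y1 O σ) M π N M0 π0 N0 hB hl (hyperfilter ℕ) Nat.hyperfilter_le_atTop
  choose a' ha' using fun s => P022D.PA.lim (PS O σ) (hyperfilter ℕ) fun n => a n s
  choose b' hb' using fun s => P022D.PA.lim (PS O σ) (hyperfilter ℕ) fun n => b n s
  have hm : ∀ s, a' s ∈ 𝔮 ∧ b' s ∈ 𝔮 := fun s =>
    ⟨(P022D.PA.limi _ _ _ _ 𝔮 (ha' s)).1 (Eventually.of_forall fun n => (hab n s).1),
      (P022D.PA.limi _ _ _ _ 𝔮 (hb' s)).1 (Eventually.of_forall fun n => (hab n s).2)⟩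
  obtain ⟨-, h2⟩ := hP O κ σ r V B a' b' P φ I₀ J₀ 𝔵 h L hB hA
    (fun s => ⟨fun u => h𝔮.ne_top (Ideal.eq_top_of_isUnit_mem _ (hm s).1 u),
      fun u => h𝔮.ne_top (Ideal.eq_top_of_isUnit_mem _ (hm s).2 u)⟩)
    (fun s => hz (fun n => y1 O σ s ^ 2 - io O σ r (a n s) * y1 O σ s + io O σ r (b n s)) _
      (fun j => ((ha' s j).and (hb' s j)).mono fun n hn => by
        have e := Ideal.sub_mem _ (io_pow (r := r) hn.2)
          (Ideal.mul_mem_right (y1 O σ s) _ (io_pow (r := r) hn.1))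
        convert e using 1
        rw [map_sub, map_sub]
        ring) fun n w => hq n s w)
    (fun p => hcm _ (hc p))
    (fun u hu => hz (fun _ => io O σ r (φ u)) _
      (fun j => Eventually.of_forall fun n => by rw [sub_self]; exact Ideal.zero_mem _)
      fun n w => hI u hu n w) hfg hst h𝔵
    (fun u hu => hs u fun w hw => by
      obtain ⟨v, hv, rfl⟩ := hon w hw
      rw [← h0, hu v hv, map_zero]) hh hJ hp hd
  obtain ⟨L0, e1, e2, e3⟩ := (h2 𝔮 h𝔮 hle).2 hm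
  let π1 : V →ₗ[PS O (σ ⊕ Fin r)] M0 := { π0 with map_smul' := h0 }
  refine ⟨L0.map π1, e1.map π1, fun i v hv => ?_, fun u hu => e3 u fun v hv => ?_⟩
  · obtain ⟨l, hl0, e⟩ := hv
    obtain ⟨l', hl', e'⟩ := e2 i l hl0
    have e4 : π0 (v - l) = 0 := by rw [map_sub]; exact sub_eq_zero.2 e.symm
    have e5 := (hl.ker0 _).2 (hB.iy _ i ((hl.ker0 _).1 e4))
    have e6 := (hl.ker0 _).2 e'
    rw [map_sub, map_sub, sub_eq_zero] at e5
    rw [map_sub, sub_eq_zero] at e6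
    exact ⟨l', hl', (e5.trans e6).symm⟩
  · rw [← hl.ker0, h0]
    exact hu _ ⟨v, hv, rfl⟩

end Vale.Agent.P022K.PL
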